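import Mathlib

/-! Countable fields carry absolute values separating any given non-root of unity from `1`. -/

namespace Vale.Agent.P184

open Cardinal

section Hom

variable {F E L : Type} [Field F] [Field E] [Field L] [Algebra F E] [Algebra F L] [IsAlgClosed L]

/-- Extend a map of a transcendence basis to the whole field. -/
lemma exists_hom_of_basis {ι : Type} (x : ι → E) (hx : IsTranscendenceBasis F x) (y : ι → L)
    (hy : AlgebraicIndependent F y) : ∃ σ : E →ₐ[F] L, ∀ i, σ (x i) = y i := by
  let φ : Algebra.adjoin F (Set.range x) →ₐ[F] L :=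
    (MvPolynomial.aeval y).comp hx.1.aevalEquiv.symm.toAlgHom
  letI : Algebra (Algebra.adjoin F (Set.range x)) L := φ.toRingHom.toAlgebra
  haveI : IsScalarTower F (Algebra.adjoin F (Set.range x)) L :=
    IsScalarTower.of_algebraMap_eq fun r => (φ.commutes r).symm
  haveI : FaithfulSMul (Algebra.adjoin F (Set.range x)) L :=
    (faithfulSMul_iff_algebraMap_injective _ _).2
      ((show Function.Injective (MvPolynomial.aeval y : MvPolynomial ι F →ₐ[F] L) from hy).comp
        hx.1.aevalEquiv.symm.injective)
  haveI := hx.isAlgebraic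
  let τ : E →ₐ[Algebra.adjoin F (Set.range x)] L := IsAlgClosed.lift
  refine ⟨τ.restrictScalars F, fun i => ?_⟩
  have hmem : x i ∈ Algebra.adjoin F (Set.range x) := Algebra.subset_adjoin ⟨i, rfl⟩
  have h1 : τ (x i) = φ ⟨x i, hmem⟩ := τ.commutes ⟨x i, hmem⟩
  have h2 : hx.1.aevalEquiv.symm ⟨x i, hmem⟩ = MvPolynomial.X i := by
    rw [AlgEquiv.symm_apply_eq]
    apply Subtype.ext
    simp
  rw [AlgHom.restrictScalars_apply, h1]
  simp [φ, h2]

/-- An uncountable algebraically closed extension of a countable field contains every countable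
extension; one transcendental element can be prescribed. -/
lemma exists_hom [Countable F] [Countable E] (hL : ℵ₀ < #L) :
    Nonempty (E →ₐ[F] L) ∧ ∀ (u : E) (t : L), Transcendental F u → Transcendental F t →
      ∃ σ : E →ₐ[F] L, σ u = t := by
  classical
  have hinf : ∀ T : Set L, IsTranscendenceBasis F ((↑) : T → L) → Infinite T := by
    intro T hT
    by_contra hfin
    rw [not_infinite_iff_finite] at hfin
    have h := IsAlgClosed.cardinal_le_max_transcendence_basis' (v' := ((↑) : T → L)) hT
    exact absurd hL (not_lt.2 (h.trans (max_le (max_le mk_le_aleph0 mk_le_aleph0) le_rfl)))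
  constructor
  · obtain ⟨S, hS⟩ := exists_isTranscendenceBasis F E
    obtain ⟨T, hT⟩ := exists_isTranscendenceBasis F L
    haveI := hinf T hT
    obtain ⟨f, hf⟩ := exists_injective_nat S
    let emb : S → T := fun s => Infinite.natEmbedding T (f s)
    obtain ⟨σ, -⟩ := exists_hom_of_basis _ hS (fun s => ((emb s : T) : L))
      (hT.1.comp emb ((Infinite.natEmbedding T).injective.comp hf))
    exact ⟨σ⟩
  · intro u t hu ht
    obtain ⟨S, huS, hS⟩ := exists_isTranscendenceBasis_superset (R := F)
      (s := ({u} : Set E)) (algebraicIndependent_unique_type_iff.2 hu)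
    obtain ⟨T, htT, hT⟩ := exists_isTranscendenceBasis_superset (R := F)
      (s := ({t} : Set L)) (algebraicIndependent_unique_type_iff.2 ht)
    haveI := hinf T hT
    obtain ⟨f, hf⟩ := exists_injective_nat S
    let u' : S := ⟨u, huS rfl⟩
    let t' : T := ⟨t, htT rfl⟩
    let e0 : S → T := fun s => Infinite.natEmbedding T (f s)
    let emb : S → T := fun s => Equiv.swap (e0 u') t' (e0 s)
    obtain ⟨σ, hσ⟩ := exists_hom_of_basis _ hS (fun s => ((emb s : T) : L))
      (hT.1.comp emb ((Equiv.injective _).comp ((Infinite.natEmbedding T).injective.comp hf)))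
    exact ⟨σ, by simpa [emb, u', t'] using hσ u'⟩

end Hom

/-- Pull the norm back along a field embedding. -/
noncomputable def absOfHom {E L : Type} [Field E] [NormedField L] (σ : E →+* L) :
    AbsoluteValue E ℝ where
  toFun x := ‖σ x‖
  map_mul' x y := by simp
  nonneg' x := norm_nonneg _
  eq_zero' x := by simp
  add_le' x y := by simpa using norm_add_le (σ x) (σ y)

lemma norm_coeff_le_one {L : Type*} [NormedField L] [IsUltrametricDist L] (s : Multiset L)
    (hs : ∀ r ∈ s, ‖r‖ ≤ 1) (i : ℕ) :
    ‖((s.map fun r => Polynomial.X - Polynomial.C r).prod).coeff i‖ ≤ 1 := by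
  induction s using Multiset.induction_on generalizing i with
  | empty =>
    simp only [Multiset.map_zero, Multiset.prod_zero, Polynomial.coeff_one]
    split_ifs <;> simp
  | cons r s ih =>
    have hr := hs r (Multiset.mem_cons_self _ _)
    have ih' := ih fun x hx => hs x (Multiset.mem_cons_of_mem hx)
    rw [Multiset.map_cons, Multiset.prod_cons, sub_mul, Polynomial.coeff_sub,
      Polynomial.coeff_C_mul, sub_eq_add_neg]
    refine (IsUltrametricDist.norm_add_le_max _ _).trans (max_le ?_ ?_)
    · cases i with
      | zero => simp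
      | succ i => rw [Polynomial.coeff_X_mul]; exact ih' i
    · rw [norm_neg, norm_mul]
      exact mul_le_one₀ hr (norm_nonneg _) (ih' i)

lemma exists_abs_charZero {E : Type} [Field E] [Countable E] [CharZero E] (u : E) (hu0 : u ≠ 0)
    (hu : ∀ m : ℕ, 0 < m → u ^ m ≠ 1) : ∃ v : AbsoluteValue E ℝ, v u ≠ 1 := by
  classical
  have hC : ℵ₀ < #ℂ := by rw [Cardinal.mk_complex]; exact Cardinal.aleph0_lt_continuum
  by_cases halg : IsAlgebraic ℚ u
  · have hint : IsIntegral ℚ u := halg.isIntegral
    by_cases hz : IsIntegral ℤ u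
    · -- some archimedean absolute value works
      let F := IntermediateField.adjoin ℚ ({u} : Set E)
      haveI : FiniteDimensional ℚ F := IntermediateField.adjoin.finiteDimensional hint
      haveI : NumberField F := ⟨⟩
      haveI : Countable F := Subtype.countable
      let uF : F := ⟨u, IntermediateField.mem_adjoin_simple_self ℚ u⟩
      have hzF : IsIntegral ℤ uF :=
        (isIntegral_algHom_iff ((IsScalarTower.toAlgHom ℤ F E)) (algebraMap F E).injective).1 hz
      obtain ⟨φ, hφ⟩ : ∃ φ : F →+* ℂ, ‖φ uF‖ ≠ 1 := by
        by_contra hall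
        push_neg at hall
        obtain ⟨m, hm0, hm1⟩ := NumberField.Embeddings.pow_eq_one_of_norm_eq_one F ℂ hzF hall
        exact hu m hm0 (by simpa [uF] using congrArg (Subtype.val : F → E) hm1)
      letI : Algebra F ℂ := φ.toAlgebra
      obtain ⟨σ⟩ := (exists_hom (F := F) (E := E) hC).1
      refine ⟨absOfHom σ.toRingHom, ?_⟩
      have := σ.commutes uF
      change ‖σ u‖ ≠ 1
      rw [show u = algebraMap F E uF from rfl, this]
      exact hφ
    · -- some p-adic absolute value works
      obtain ⟨i, hi⟩ : ∃ i, ((minpoly ℚ u).coeff i).den ≠ 1 := by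
        by_contra hall
        push_neg at hall
        apply hz
        have hlift : minpoly ℚ u ∈ Polynomial.lifts (Int.castRingHom ℚ) := by
          rw [Polynomial.lifts_iff_coeff_lifts]
          exact fun n => ⟨((minpoly ℚ u).coeff n).num,
            by simpa using (Rat.den_eq_one_iff _).1 (hall n)⟩
        obtain ⟨P, hP, -, hPm⟩ :=
          Polynomial.lifts_and_natDegree_eq_and_monic hlift (minpoly.monic hint)
        refine ⟨P, hPm, ?_⟩
        have h0 := minpoly.aeval ℚ u
        rw [← hP, Polynomial.aeval_def, Polynomial.eval₂_map] at h0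
        rwa [RingHom.ext_int ((algebraMap ℚ E).comp (Int.castRingHom ℚ)) (algebraMap ℤ E)] at h0
      set c := (minpoly ℚ u).coeff i with hc
      set p := c.den.minFac
      haveI : Fact p.Prime := ⟨Nat.minFac_prime hi⟩
      have hbig : 1 < ‖(c : ℚ_[p])‖ := by
        by_contra hle
        have hnd : ¬ (p : ℕ) ∣ c.den → False := fun h => h (Nat.minFac_dvd _)
        apply hnd
        intro hdvd
        have hden : ‖((c.den : ℕ) : ℚ_[p])‖ < 1 := Padic.norm_natCast_lt_one_iff.2 hdvd
        have hmul : (c : ℚ_[p]) * (c.den : ℚ_[p]) = (c.num : ℚ_[p]) := by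
          exact_mod_cast Rat.mul_den_eq_num c
        have hnum : ‖(c.num : ℚ_[p])‖ < 1 := by
          rw [← hmul, norm_mul]
          calc ‖(c : ℚ_[p])‖ * ‖(c.den : ℚ_[p])‖ ≤ 1 * ‖(c.den : ℚ_[p])‖ :=
                mul_le_mul_of_nonneg_right (not_lt.1 hle) (norm_nonneg _)
            _ < 1 := by rwa [one_mul]
        rw [Padic.norm_intCast_lt_one_iff] at hnum
        have hg : p ∣ Nat.gcd c.num.natAbs c.den := Nat.dvd_gcd (Int.natCast_dvd.1 hnum) hdvd
        rw [c.reduced] at hg
        exact (Fact.out : p.Prime).ne_one (Nat.dvd_one.1 hg)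
      let L := PadicAlgCl p
      have hbig' : 1 < ‖algebraMap ℚ L c‖ := by
        rw [IsScalarTower.algebraMap_apply ℚ ℚ_[p] L, ← PadicAlgCl.spectralNorm_eq,
          spectralNorm_extends]
        simpa using hbig
      have hsp : ((minpoly ℚ u).map (algebraMap ℚ L)).Splits := IsAlgClosed.splits _
      obtain ⟨r, hr, hr1⟩ : ∃ r ∈ ((minpoly ℚ u).map (algebraMap ℚ L)).roots, 1 < ‖r‖ := by
        by_contra hall
        push_neg at hall
        haveI : IsUltrametricDist L :=
          IsUltrametricDist.isUltrametricDist_of_isNonarchimedean_norm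
            (PadicAlgCl.isNonarchimedean p)
        have h1 := norm_coeff_le_one _ hall i
        rw [← hsp.eq_prod_roots_of_monic ((minpoly.monic hint).map _),
          Polynomial.coeff_map] at h1
        exact absurd hbig' (not_lt.2 h1)
      let F := IntermediateField.adjoin ℚ ({u} : Set E)
      haveI : Countable F := Subtype.countable
      let uF : F := ⟨u, IntermediateField.mem_adjoin_simple_self ℚ u⟩
      let pb := IntermediateField.adjoin.powerBasis hint
      have hroot : Polynomial.aeval r (minpoly ℚ pb.gen) = 0 := by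
        rw [← minpoly.algebraMap_eq (algebraMap F E).injective pb.gen,
          show algebraMap F E pb.gen = u from by
            simp [pb, IntermediateField.adjoin.powerBasis_gen]]
        rw [Polynomial.mem_roots'] at hr
        simpa [Polynomial.IsRoot, Polynomial.eval_map, Polynomial.aeval_def] using hr.2
      let φ : F →ₐ[ℚ] L := pb.lift r hroot
      have hφ : φ uF = r := by
        have : pb.gen = uF := IntermediateField.adjoin.powerBasis_gen hint
        rw [← this]
        exact pb.lift_gen r hroot
      letI : Algebra F L := φ.toRingHom.toAlgebra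
      have hL : ℵ₀ < #L := by
        exact lt_of_lt_of_le (lt_of_lt_of_le aleph0_lt_continuum
          (continuum_le_cardinal_of_nontriviallyNormedField ℚ_[p]))
          (mk_le_of_injective (algebraMap ℚ_[p] L).injective)
      obtain ⟨σ⟩ := (exists_hom (F := F) (E := E) hL).1
      refine ⟨absOfHom σ.toRingHom, ?_⟩
      change ‖σ u‖ ≠ 1
      rw [show u = algebraMap F E uF from rfl, σ.commutes]
      change ‖φ uF‖ ≠ 1
      rw [hφ]
      exact hr1.ne'
  · -- a transcendental element goes to a transcendental number off the unit circle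
    obtain ⟨t, ht, ht1⟩ : ∃ t : ℂ, Transcendental ℚ t ∧ ‖t‖ ≠ 1 := by
      by_contra hall
      push_neg at hall
      have hsub : ((↑) '' Set.Ioi (1 : ℝ) : Set ℂ) ⊆ {z : ℂ | IsAlgebraic ℚ z} := by
        rintro _ ⟨x, hx, rfl⟩
        by_contra hx'
        have := hall (x : ℂ) hx'
        rw [Complex.norm_real, Real.norm_eq_abs, abs_of_pos (zero_lt_one.trans hx)] at this
        exact hx.ne' this
      have hcount := (Algebraic.countable ℚ ℂ).mono hsub
      have := Set.countable_of_injective_of_countable_image
        Complex.ofReal_injective.injOn hcount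
      exact absurd this (by
        rw [← le_aleph0_iff_set_countable, Cardinal.mk_Ioi_real]; exact aleph0_lt_continuum.not_ge)
    obtain ⟨σ, hσ⟩ := (exists_hom (F := ℚ) (E := E) hC).2 u t halg ht
    refine ⟨absOfHom σ.toRingHom, ?_⟩
    change ‖σ u‖ ≠ 1
    rwa [hσ]

section CharP

open scoped Valued

variable (p : ℕ) [Fact p.Prime]

/-- Laurent series over `ZMod p` are a field with a real absolute value. -/
noncomputable instance laurentRankOne :
    (Valued.v : Valuation (LaurentSeries (ZMod p)) (WithZero (Multiplicative ℤ))).RankOne := by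
  haveI : (Valued.v : Valuation (LaurentSeries (ZMod p))
      (WithZero (Multiplicative ℤ))).IsNontrivial := by
    refine ⟨HahnSeries.single 1 1, ?_, ?_⟩ <;> simp [LaurentSeries.valuation_single_zpow]
  exact (Valuation.nonempty_rankOne_iff_mulArchimedean.2 inferInstance).some

lemma exists_abs_charP {E : Type} [Field E] [Countable E] [Algebra (ZMod p) E] (u : E)
    (hu0 : u ≠ 0) (hu : ∀ m : ℕ, 0 < m → u ^ m ≠ 1) : ∃ v : AbsoluteValue E ℝ, v u ≠ 1 := by
  classical
  have htrans : Transcendental (ZMod p) u := by
    intro halg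
    have hint : IsIntegral (ZMod p) u := halg.isIntegral
    let F := IntermediateField.adjoin (ZMod p) ({u} : Set E)
    haveI : FiniteDimensional (ZMod p) F := IntermediateField.adjoin.finiteDimensional hint
    haveI : Finite F := Module.finite_of_finite (ZMod p)
    let uF : Fˣ := Units.mk0 ⟨u, IntermediateField.mem_adjoin_simple_self (ZMod p) u⟩
      fun h => hu0 (congrArg Subtype.val h)
    obtain ⟨m, hm0, hm1⟩ := (isOfFinOrder_of_finite uF).exists_pow_eq_one
    exact hu m hm0 (by simpa [uF] using congrArg (fun w : Fˣ => ((w : F) : E)) hm1)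
  let K := LaurentSeries (ZMod p)
  letI : NontriviallyNormedField K :=
    { Valued.toNormedField K (WithZero (Multiplicative ℤ)) with
      non_trivial := by
        refine ⟨HahnSeries.single (-1 : ℤ) 1, ?_⟩
        rw [Valued.toNormedField.one_lt_norm_iff, LaurentSeries.valuation_single_zpow]
        exact WithZero.exp_lt_exp.2 (by norm_num) }
  haveI : IsUltrametricDist K :=
    IsUltrametricDist.isUltrametricDist_of_isNonarchimedean_norm (Valued.isNonarchimedean_norm K _)
  let L := AlgebraicClosure K
  letI : NormedField L := spectralNorm.normedField K L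
  let t : L := algebraMap K L (HahnSeries.single (-1 : ℤ) 1)
  have ht1 : 1 < ‖t‖ := by
    change 1 < spectralNorm K L (algebraMap K L _)
    rw [spectralNorm_extends, Valued.toNormedField.one_lt_norm_iff,
      LaurentSeries.valuation_single_zpow]
    exact WithZero.exp_lt_exp.2 (by norm_num)
  have ht : Transcendental (ZMod p) t := by
    intro halg
    let F := IntermediateField.adjoin (ZMod p) ({t} : Set L)
    haveI : FiniteDimensional (ZMod p) F :=
      IntermediateField.adjoin.finiteDimensional halg.isIntegral
    haveI : Finite F := Module.finite_of_finite (ZMod p)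
    have ht0 : t ≠ 0 := fun h => by rw [h, norm_zero] at ht1; linarith
    let tF : Fˣ := Units.mk0 ⟨t, IntermediateField.mem_adjoin_simple_self (ZMod p) t⟩
      fun h => ht0 (congrArg Subtype.val h)
    obtain ⟨m, hm0, hm1⟩ := (isOfFinOrder_of_finite tF).exists_pow_eq_one
    have h1 : t ^ m = 1 := by simpa [tF] using congrArg (fun w : Fˣ => ((w : F) : L)) hm1
    have h2 := one_lt_pow₀ ht1 hm0.ne'
    rw [← norm_pow, h1, norm_one] at h2
    exact lt_irrefl _ h2
  have hL : ℵ₀ < #L := by
    refine lt_of_lt_of_le ?_ (mk_le_of_injective (algebraMap K L).injective)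
    rw [aleph0_lt_mk_iff]
    let f : Set ℕ → K := fun s => HahnSeries.ofPowerSeries ℤ (ZMod p)
      (PowerSeries.mk fun n => if n ∈ s then 1 else 0)
    haveI : Uncountable (Set ℕ) := by
      rw [← aleph0_lt_mk_iff, mk_set, mk_nat]; exact cantor _
    refine Function.Injective.uncountable (f := f) fun a b h => ?_
    have := HahnSeries.ofPowerSeries_injective h
    ext n
    have h2 := congrArg (PowerSeries.coeff n) this
    simp only [PowerSeries.coeff_mk] at h2
    by_cases ha : n ∈ a <;> by_cases hb : n ∈ b <;> simp_all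
  obtain ⟨σ, hσ⟩ := (exists_hom (F := ZMod p) (E := E) (L := L) hL).2 u t htrans ht
  refine ⟨absOfHom σ.toRingHom, ?_⟩
  change ‖σ u‖ ≠ 1
  rw [hσ]
  exact ht1.ne'

end CharP

/-- On a countable field an element that is not a root of unity has some nontrivial absolute
value. -/
theorem exists_abs {E : Type} [Field E] [Countable E] (u : E) (hu0 : u ≠ 0)
    (hu : ∀ m : ℕ, 0 < m → u ^ m ≠ 1) : ∃ v : AbsoluteValue E ℝ, v u ≠ 1 := by
  obtain ⟨p, hp⟩ := CharP.exists E
  rcases CharP.char_is_prime_or_zero E p with hpp | rfl
  · haveI : Fact p.Prime := ⟨hpp⟩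
    letI := ZMod.algebra E p
    exact exists_abs_charP p u hu0 hu
  · haveI := CharP.charP_to_charZero E
    exact exists_abs_charZero u hu0 hu

end Vale.Agent.P184
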