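import Mathlib.Analysis.Normed.Ring.InfiniteSum
import Mathlib.Analysis.Normed.Group.FunctionSeries
import Mathlib.Analysis.Normed.Algebra.Exponential
import Mathlib.LinearAlgebra.Trace
import Mathlib.LinearAlgebra.Matrix.ToLin
import Mathlib.Analysis.Complex.Basic
import Mathlib.Topology.Connected.TotallyDisconnected
import Mathlib.Topology.Instances.Nat

/-! Idempotent matrices over `ℓ¹(G)` and traces of their images under matrix representations. -/

namespace Vale.Agent.P184

open scoped BigOperators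
open Finset

variable {G : Type*} [Group G] {q : ℕ}

/-- An idempotent `q × q` matrix over the convolution algebra `ℓ¹(G)`. -/
structure IsIdem (e : Fin q → Fin q → G → ℂ) : Prop where
  summable : ∀ i j, Summable fun g => ‖e i j g‖
  idem : ∀ i k g, ∑ j, ∑' h : G, e i j h * e j k (h⁻¹ * g) = e i k g

/-- The diagonal coefficient sum `g ↦ ∑ i, e i i g`. -/
def diag (e : Fin q → Fin q → G → ℂ) (g : G) : ℂ := ∑ i, e i i g

lemma IsIdem.summable_diag {e : Fin q → Fin q → G → ℂ} (he : IsIdem e) :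
    Summable fun g => ‖diag e g‖ :=
  Summable.of_nonneg_of_le (fun _ => norm_nonneg _) (fun _g => norm_sum_le _ _)
    (summable_sum fun i _ => he.summable i i)

lemma summable_mul_bdd {α : Type*} {a : α → ℂ} (ha : Summable fun x => ‖a x‖) {f : α → ℂ} {K : ℝ}
    (hf : ∀ x, ‖f x‖ ≤ K) : Summable fun x => ‖a x * f x‖ :=
  Summable.of_nonneg_of_le (fun _ => norm_nonneg _)
    (fun x => by rw [norm_mul]; exact mul_le_mul_of_nonneg_left (hf x) (norm_nonneg _))
    (ha.mul_right K)

variable {ι : Type*} [Fintype ι] [DecidableEq ι]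

/-- The image of `e` under a bounded matrix representation. -/
noncomputable def image (ρ : G → Matrix ι ι ℂ) (e : Fin q → Fin q → G → ℂ) :
    Matrix (Fin q × ι) (Fin q × ι) ℂ :=
  fun x y => ∑' g, e x.1 y.1 g * ρ g x.2 y.2

omit [Fintype ι] [DecidableEq ι] in
lemma conv_pair {f k : G → ℂ} (hf : Summable fun g => ‖f g‖) (hk : Summable fun g => ‖k g‖)
    {u : G → ℂ} {K : ℝ} (hu : ∀ g, ‖u g‖ ≤ K) :
    Summable (fun g => (∑' h, f h * k (h⁻¹ * g)) * u g) ∧
      ∑' p : G × G, f p.1 * k p.2 * u (p.1 * p.2) = ∑' g, (∑' h, f h * k (h⁻¹ * g)) * u g := by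
  let σ : G × G ≃ G × G :=
    { toFun := fun p => (p.2, p.2⁻¹ * p.1)
      invFun := fun p => (p.1 * p.2, p.1)
      left_inv := fun p => by simp
      right_inv := fun p => by simp }
  have h0 : Summable fun p : G × G => ‖f p.1 * k p.2‖ := hf.mul_norm hk
  have h1 : Summable fun p : G × G => f p.1 * k p.2 * u (p.1 * p.2) :=
    (summable_mul_bdd h0 fun p => hu (p.1 * p.2)).of_norm
  have h2 : Summable fun p : G × G => f p.2 * k (p.2⁻¹ * p.1) * u p.1 :=
    (σ.summable_iff.2 h1).congr fun p => by simp [σ]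
  have h3 : ∑' p : G × G, f p.1 * k p.2 * u (p.1 * p.2)
      = ∑' p : G × G, f p.2 * k (p.2⁻¹ * p.1) * u p.1 := by
    rw [← σ.tsum_eq]
    exact tsum_congr fun p => by simp [σ]
  have h4 : ∀ g : G, ∑' h, f h * k (h⁻¹ * g) * u g = (∑' h, f h * k (h⁻¹ * g)) * u g :=
    fun g => tsum_mul_right
  refine ⟨h2.prod.congr h4, ?_⟩
  rw [h3, h2.tsum_prod]
  exact tsum_congr h4

lemma image_idem {e : Fin q → Fin q → G → ℂ} (he : IsIdem e) {ρ : G → Matrix ι ι ℂ}
    (hmul : ∀ g h, ρ (g * h) = ρ g * ρ h) {K : ℝ} (hK : ∀ g a b, ‖ρ g a b‖ ≤ K) :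
    image ρ e * image ρ e = image ρ e := by
  ext ⟨i, a⟩ ⟨k, c⟩
  rw [Matrix.mul_apply, Fintype.sum_prod_type]
  simp only [image]
  have hcp := fun j => conv_pair (he.summable i j) (he.summable j k) (u := fun g => ρ g a c)
    fun g => hK g a c
  have hs : ∀ (i j : Fin q) (a b : ι), Summable fun g => ‖e i j g * ρ g a b‖ :=
    fun i j a b => summable_mul_bdd (f := fun g => ρ g a b) (he.summable i j) fun g => hK g a b
  have hpair : ∀ j : Fin q, ∑ b, (∑' g, e i j g * ρ g a b) * (∑' h, e j k h * ρ h b c)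
      = ∑' g, (∑' h, e i j h * e j k (h⁻¹ * g)) * ρ g a c := by
    intro j
    have hsum : ∀ b, Summable fun p : G × G =>
        (e i j p.1 * ρ p.1 a b) * (e j k p.2 * ρ p.2 b c) :=
      fun b => summable_mul_of_summable_norm (f := fun g => e i j g * ρ g a b)
        (g := fun g => e j k g * ρ g b c) (hs i j a b) (hs j k b c)
    have hprod : ∀ b, (∑' g, e i j g * ρ g a b) * (∑' h, e j k h * ρ h b c)
        = ∑' p : G × G, (e i j p.1 * ρ p.1 a b) * (e j k p.2 * ρ p.2 b c) := fun b =>
      tsum_mul_tsum_of_summable_norm (f := fun g => e i j g * ρ g a b)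
        (g := fun g => e j k g * ρ g b c) (hs i j a b) (hs j k b c)
    rw [← (hcp j).2, sum_congr rfl fun b _ => hprod b,
      ← Summable.tsum_finsetSum fun b _ => hsum b]
    refine tsum_congr fun p => ?_
    simp only [hmul, Matrix.mul_apply, mul_sum]
    exact sum_congr rfl fun b _ => by ring
  rw [sum_congr rfl fun j _ => hpair j, ← Summable.tsum_finsetSum fun j _ => (hcp j).1]
  exact tsum_congr fun g => by rw [← sum_mul, he.idem]

omit [DecidableEq ι] in
lemma trace_image {e : Fin q → Fin q → G → ℂ} (he : IsIdem e) {ρ : G → Matrix ι ι ℂ}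
    {K : ℝ} (hK : ∀ g a b, ‖ρ g a b‖ ≤ K) :
    (image ρ e).trace = ∑' g, diag e g * ∑ a, ρ g a a := by
  have hs : ∀ x : Fin q × ι, Summable fun g => e x.1 x.1 g * ρ g x.2 x.2 := fun x =>
    (summable_mul_bdd (he.summable x.1 x.1) fun g => hK g x.2 x.2).of_norm
  simp only [Matrix.trace, Matrix.diag, image]
  rw [← Summable.tsum_finsetSum fun x _ => hs x]
  refine tsum_congr fun g => ?_
  rw [Fintype.sum_prod_type, diag, sum_mul_sum]

lemma trace_idem_eq_natCast {κ : Type*} [Fintype κ] [DecidableEq κ] (M : Matrix κ κ ℂ)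
    (h : M * M = M) : ∃ n : ℕ, M.trace = n := by
  have h2 : IsIdempotentElem M.toLin' := by
    change M.toLin' ∘ₗ M.toLin' = M.toLin'
    rw [← Matrix.toLin'_mul, h]
  exact ⟨_, (Matrix.trace_toLin'_eq M).symm.trans (LinearMap.IsIdempotentElem.isProj_range _ h2).trace⟩

/-- Along a continuous path of bounded representations the paired character is constant. -/
theorem pairing_const {e : Fin q → Fin q → G → ℂ} (he : IsIdem e)
    (ρ : ℝ → G → Matrix ι ι ℂ) (hmul : ∀ t g h, ρ t (g * h) = ρ t g * ρ t h) {K : ℝ}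
    (hK : ∀ t g a b, ‖ρ t g a b‖ ≤ K) (hc : ∀ g a, Continuous fun t => ρ t g a a) (s t : ℝ) :
    ∑' g, diag e g * (∑ a, ρ s g a a - ∑ a, ρ t g a a) = 0 := by
  set F : ℝ → ℂ := fun t => ∑' g, diag e g * ∑ a, ρ t g a a with hF
  have hb : ∀ t g, ‖∑ a, ρ t g a a‖ ≤ Fintype.card ι * K := fun t g =>
    (norm_sum_le _ _).trans ((sum_le_sum fun a _ => hK t g a a).trans_eq (by simp))
  have hFc : Continuous F :=
    continuous_tsum (fun g => continuous_const.mul (continuous_finsetSum _ fun a _ => hc g a))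
      (he.summable_diag.mul_right (Fintype.card ι * K)) fun g t => by
        rw [norm_mul]; exact mul_le_mul_of_nonneg_left (hb t g) (norm_nonneg _)
  have hn : ∀ t, ∃ n : ℕ, F t = n := fun t => by
    obtain ⟨n, hn⟩ := trace_idem_eq_natCast _ (image_idem he (hmul t) (hK t))
    exact ⟨n, by rw [← hn, trace_image he (hK t)]⟩
  choose n hn using hn
  have hnc : Continuous n := by
    refine (Nat.isClosedEmbedding_coe_real.isInducing.continuous_iff).2 ?_
    refine (Complex.continuous_re.comp hFc).congr fun t => ?_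
    simp [hn]
  have hst : F s = F t := by
    rw [hn, hn, PreconnectedSpace.constant inferInstance hnc (x := s) (y := t)]
  have hsum : ∀ t, Summable fun g => diag e g * ∑ a, ρ t g a a := fun t =>
    (summable_mul_bdd he.summable_diag (hb t)).of_norm
  simp only [mul_sub]
  rw [(hsum s).tsum_sub (hsum t)]
  exact sub_eq_zero.2 hst

end Vale.Agent.P184
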