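import Mathlib.Algebra.Category.Grp.Injective
import Mathlib.Algebra.Module.CharacterModule
import Mathlib.Analysis.SpecialFunctions.Complex.Circle
import Mathlib.GroupTheory.Index
import Mathlib.Algebra.Field.GeomSum
import Vale.Agent.P184.Trace

/-! Isolating one conjugacy class by monomial representations. -/

namespace Vale.Agent.P184

open scoped BigOperators Real
open Finset

section Abelian

variable {B : Type*} [CommGroup B]

/-- A unitary character of `B`. -/
def IsChar (χ : B → ℂ) : Prop :=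
  χ 1 = 1 ∧ (∀ x y, χ (x * y) = χ x * χ y) ∧ ∀ x, ‖χ x‖ = 1

lemma IsChar.mul {χ η : B → ℂ} (h : IsChar χ) (k : IsChar η) : IsChar fun x => χ x * η x :=
  ⟨by simp [h.1, k.1], fun x y => by simp only [h.2.1, k.2.1]; ring, fun x => by simp [h.2.2, k.2.2]⟩

lemma IsChar.one : IsChar fun _ : B => (1 : ℂ) := ⟨rfl, fun _ _ => by simp, fun _ => by simp⟩

lemma IsChar.pow {χ : B → ℂ} (h : IsChar χ) (n : ℕ) : IsChar fun x => χ x ^ n :=
  ⟨by simp [h.1], fun x y => by simp only [h.2.1, mul_pow], fun x => by simp [h.2.2]⟩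

lemma IsChar.exp (φ : B →* Multiplicative ℝ) (t : ℝ) :
    IsChar fun x => Complex.exp ((t * (φ x).toAdd : ℝ) * Complex.I) :=
  ⟨by simp, fun x y => by simp [← Complex.exp_add]; ring_nf, fun x => Complex.norm_exp_ofReal_mul_I _⟩

lemma exists_char_root {d : B} (hd : d ≠ 1) :
    ∃ χ : B → ℂ, IsChar χ ∧ χ d ≠ 1 ∧ ∃ m : ℕ, 0 < m ∧ χ d ^ m = 1 := by
  obtain ⟨c, hc⟩ := CharacterModule.exists_character_apply_ne_zero_of_ne_zero
    (A := Additive B) (a := Additive.ofMul d) hd
  have hle : AddSubgroup.zmultiples (1 : ℚ)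
      ≤ (AddSubgroup.zmultiples (1 : ℝ)).comap (Rat.castHom ℝ).toAddMonoidHom := by
    rw [AddSubgroup.zmultiples_le]
    exact AddSubgroup.mem_comap.2 (by simp)
  let j : AddCircle (1 : ℚ) →+ AddCircle (1 : ℝ) :=
    QuotientAddGroup.map _ _ (Rat.castHom ℝ).toAddMonoidHom hle
  have hj : ∀ v, j v = 0 → v = 0 := by
    intro v hv
    induction v using QuotientAddGroup.induction_on with
    | H r =>
      have hr : (r : ℝ) ∈ AddSubgroup.zmultiples (1 : ℝ) :=
        (QuotientAddGroup.eq_zero_iff _).1 hv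
      obtain ⟨n, hn⟩ := AddSubgroup.mem_zmultiples_iff.1 hr
      refine (QuotientAddGroup.eq_zero_iff _).2 (AddSubgroup.mem_zmultiples_iff.2 ⟨n, ?_⟩)
      simp only [zsmul_eq_mul, mul_one] at hn ⊢
      exact_mod_cast hn
  have hm : ∀ v : AddCircle (1 : ℚ), ∃ m : ℕ, 0 < m ∧ m • v = 0 := by
    intro v
    induction v using QuotientAddGroup.induction_on with
    | H r =>
      refine ⟨r.den, r.den_pos, ?_⟩
      rw [← QuotientAddGroup.mk_nsmul, QuotientAddGroup.eq_zero_iff]
      refine AddSubgroup.mem_zmultiples_iff.2 ⟨r.num, ?_⟩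
      simp [mul_comm]
  let χ : B → ℂ := fun x => (AddCircle.toCircle (j (c (Additive.ofMul x))) : ℂ)
  refine ⟨χ, ⟨?_, ?_, fun x => Circle.norm_coe _⟩, fun h => hc (hj _ ?_), ?_⟩
  · simp [χ, AddCircle.toCircle_zero]
  · intro x y
    simp [χ, AddCircle.toCircle_add]
  · refine AddCircle.injective_toCircle one_ne_zero ?_
    rw [AddCircle.toCircle_zero]
    exact Subtype.ext h
  · obtain ⟨m, hm0, hm1⟩ := hm (c (Additive.ofMul d))
    refine ⟨m, hm0, ?_⟩
    simp only [χ]
    rw [← Circle.coe_pow, ← AddCircle.toCircle_nsmul, ← map_nsmul j, hm1, map_zero,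
      AddCircle.toCircle_zero, Circle.coe_one]

lemma exists_height {z : B} (hz : ¬IsOfFinOrder z) :
    ∃ φ : B →* Multiplicative ℝ, (φ z).toAdd = 1 := by
  let f : ℤ →+ Additive B := zmultiplesHom _ (Additive.ofMul z)
  have hf : Function.Injective f := by
    intro m n hmn
    have h2 : z ^ m = z ^ n := congrArg Additive.toMul hmn
    exact injective_zpow_iff_not_isOfFinOrder.2 hz h2
  obtain ⟨h, hh⟩ := (Module.Baer.of_divisible ℝ).extension_property_addMonoidHom f hf
    (Int.castAddHom ℝ)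
  refine ⟨AddMonoidHom.toMultiplicativeRight h, ?_⟩
  have := DFunLike.congr_fun hh 1
  simpa [f] using this

end Abelian

variable {G : Type*} [Group G] {q : ℕ} {B : Type*} [CommGroup B]

/-- A function on `H` transported to `G` by zero. -/
noncomputable def ext0 (H : Subgroup G) (ψ : H →* B) (f : B → ℂ) (x : G) : ℂ := by
  classical exact if hx : x ∈ H then f (ψ ⟨x, hx⟩) else 0

/-- The induced class function. -/
noncomputable def indFun (H : Subgroup G) [Fintype (G ⧸ H)] (ψ : H →* B) (f : B → ℂ) (g : G) : ℂ :=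
  ∑ a : G ⧸ H, ext0 H ψ f (a.out⁻¹ * g * a.out)

variable (H : Subgroup G) (ψ : H →* B)

lemma ext0_norm_le {f : B → ℂ} {K : ℝ} (hK0 : 0 ≤ K) (hf : ∀ b, ‖f b‖ ≤ K) (x : G) :
    ‖ext0 H ψ f x‖ ≤ K := by
  unfold ext0
  split_ifs
  · exact hf _
  · simpa using hK0

lemma ext0_mul {χ : B → ℂ} (hχ : IsChar χ) {x y : G} (hy : y ∈ H) :
    ext0 H ψ χ (x * y) = ext0 H ψ χ x * ext0 H ψ χ y := by
  unfold ext0
  by_cases hx : x ∈ H
  · rw [dif_pos (H.mul_mem hx hy), dif_pos hx, dif_pos hy, ← hχ.2.1, ← map_mul]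
    rfl
  · rw [dif_neg fun h => hx ((H.mul_mem_cancel_right hy).1 h), dif_neg hx, zero_mul]

variable [Fintype (G ⧸ H)]

/-- The monomial representation induced from a character. -/
noncomputable def mono (χ : B → ℂ) (g : G) : Matrix (G ⧸ H) (G ⧸ H) ℂ :=
  fun a c => ext0 H ψ χ (a.out⁻¹ * g * c.out)

lemma monomial_mul {χ : B → ℂ} (hχ : IsChar χ) (g h : G) :
    mono H ψ χ (g * h) = mono H ψ χ g * mono H ψ χ h := by
  classical
  ext a c
  simp only [Matrix.mul_apply, mono]
  rw [sum_eq_single (QuotientGroup.mk (h * c.out) : G ⧸ H)]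
  · set b : G ⧸ H := QuotientGroup.mk (h * c.out) with hb
    have hmem : b.out⁻¹ * h * c.out ∈ H := by
      rw [mul_assoc]
      exact QuotientGroup.eq.1 (QuotientGroup.out_eq' b)
    rw [← ext0_mul H ψ hχ hmem]
    congr 1
    group
  · intro b _ hb
    have : b.out⁻¹ * h * c.out ∉ H := fun hm => hb <| by
      rw [← QuotientGroup.out_eq' b]
      exact QuotientGroup.eq.2 (by rwa [← mul_assoc])
    simp [ext0, dif_neg this]
  · simp

lemma indFun_norm_le {f : B → ℂ} {K : ℝ} (hK0 : 0 ≤ K) (hf : ∀ b, ‖f b‖ ≤ K) (g : G) :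
    ‖indFun H ψ f g‖ ≤ Fintype.card (G ⧸ H) * K :=
  (norm_sum_le _ _).trans ((sum_le_sum fun _ _ => ext0_norm_le H ψ hK0 hf _).trans_eq (by simp))

variable {e : Fin q → Fin q → G → ℂ}

/-- The pairing kills every twisted kernel `χ · (θ - 1)`. -/
lemma pairing_twist (he : IsIdem e) {χ : B → ℂ} (hχ : IsChar χ) (φ : B →* Multiplicative ℝ) :
    ∑' g, diag e g
      * indFun H ψ (fun b => χ b * (Complex.exp ((π * (φ b).toAdd : ℝ) * Complex.I) - 1)) g = 0 := by
  classical
  let η : ℝ → B → ℂ := fun t b => χ b * Complex.exp ((t * (φ b).toAdd : ℝ) * Complex.I)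
  have hη : ∀ t, IsChar (η t) := fun t => hχ.mul (IsChar.exp φ t)
  have h := pairing_const he (fun t g => mono H ψ (η t) g)
    (fun t g h => monomial_mul H ψ (hη t) g h) (K := 1)
    (fun t g a b => ext0_norm_le H ψ zero_le_one (fun b => ((hη t).2.2 b).le) _)
    (fun g a => by
      simp only [mono, ext0]
      split_ifs
      · fun_prop
      · exact continuous_const) π 0
  refine Eq.trans (tsum_congr fun g => ?_) h
  congr 1
  rw [← sum_sub_distrib]
  refine sum_congr rfl fun a _ => ?_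
  simp only [mono, ext0, η]
  split_ifs
  · simp [mul_sub]
  · simp

open scoped Classical in
/-- For an element of infinite order in an abelian quotient of a finite-index subgroup,
the induced indicator pairs to zero with any idempotent. -/
theorem pairing_fibre (he : IsIdem e) {z : B} (hz : ¬IsOfFinOrder z) :
    ∑' g, diag e g * indFun H ψ (fun b => if b = z then 1 else 0) g = 0 := by
  obtain ⟨φ, hφ⟩ := exists_height hz
  set w : B → ℂ := fun b => Complex.exp ((π * (φ b).toAdd : ℝ) * Complex.I) - 1 with hw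
  have hw2 : ∀ b, ‖w b‖ ≤ 2 := fun b =>
    (norm_sub_le _ _).trans (by rw [Complex.norm_exp_ofReal_mul_I, norm_one]; norm_num)
  set N : ℝ := ((Fintype.card (G ⧸ H) : ℕ) : ℝ) with hN
  -- functions all whose twists are killed
  let good : (B → ℂ) → Prop := fun f => (∀ b, ‖f b‖ ≤ 1) ∧
    ∀ χ, IsChar χ → ∑' g, diag e g * indFun H ψ (fun b => χ b * f b * w b) g = 0
  have hone : good fun _ => 1 := ⟨fun _ => by simp, fun χ hχ => by
    simpa [hw] using pairing_twist H ψ he hχ φ⟩
  have hbd : ∀ {f : B → ℂ}, (∀ b, ‖f b‖ ≤ 1) → ∀ {χ : B → ℂ}, IsChar χ → ∀ b,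
      ‖χ b * f b * w b‖ ≤ 2 := fun hf χ hχ b => by
    rw [norm_mul, norm_mul, hχ.2.2, one_mul]
    exact (mul_le_of_le_one_left (norm_nonneg _) (hf b)).trans (hw2 b)
  have hsep : ∀ F : Finset B, ∃ f, good f ∧ f z = 1 ∧ ∀ c ∈ F, c ≠ z → f c = 0 := by
    intro F
    induction F using Finset.induction_on with
    | empty => exact ⟨_, hone, rfl, fun c hc => absurd hc (notMem_empty c)⟩
    | insert c F _ ih =>
      obtain ⟨f, hf, hfz, hfF⟩ := ih
      by_cases hc : c = z
      · refine ⟨f, hf, hfz, fun c' hc' hne => hfF c' ?_ hne⟩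
        exact (mem_insert.1 hc').resolve_left (hc ▸ hne)
      · obtain ⟨χ, hχ, hne, m, hm, hpow⟩ := exists_char_root (d := c / z) (div_ne_one.2 hc)
        have hχz : χ z ≠ 0 := fun h => by simpa [h] using hχ.2.2 z
        let η : B → ℂ := fun b => χ (b / z)
        have hdiv : ∀ b, η b = χ b * (χ z)⁻¹ := fun b => by
          rw [eq_mul_inv_iff_mul_eq₀ hχz, ← hχ.2.1, div_mul_cancel]
        -- averaging over the powers of a character with value a root of unity at the point
        refine ⟨fun b => (m : ℂ)⁻¹ * (∑ k ∈ range m, (η b) ^ k) * f b, ?_, ?_, ?_⟩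
        · have : ∀ (k : ℕ) (b : B), η b ^ k = χ b ^ k * (χ z)⁻¹ ^ k := fun k b => by
            rw [hdiv, mul_pow]
          refine ⟨fun b => ?_, fun ξ hξ => ?_⟩
          · rw [norm_mul, norm_mul, norm_inv, Complex.norm_natCast]
            refine mul_le_one₀ ?_ (norm_nonneg _) (hf.1 b)
            refine inv_mul_le_one_of_le₀ ((norm_sum_le _ _).trans_eq ?_) (Nat.cast_nonneg _)
            simp [η, hχ.2.2]
          · have e1 : ∀ g, indFun H ψ (fun b => ξ b * ((m : ℂ)⁻¹ * (∑ k ∈ range m, η b ^ k) * f b) * w b) g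
                = ∑ k ∈ range m, ((m : ℂ)⁻¹ * (χ z)⁻¹ ^ k)
                  * indFun H ψ (fun b => ξ b * χ b ^ k * f b * w b) g := by
              intro g
              simp only [indFun, mul_sum]
              rw [sum_comm]
              refine sum_congr rfl fun a _ => ?_
              simp only [ext0]
              split_ifs
              · simp only [this, mul_sum, sum_mul]
                exact sum_congr rfl fun k _ => by ring
              · simp
            rw [tsum_congr fun g => congrArg (diag e g * ·) (e1 g)]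
            simp only [mul_sum]
            rw [Summable.tsum_finsetSum]
            · refine sum_eq_zero fun k _ => ?_
              simp only [mul_left_comm _ ((m : ℂ)⁻¹ * (χ z)⁻¹ ^ k)]
              rw [tsum_mul_left, hf.2 _ (hξ.mul (hχ.pow k)), mul_zero]
            · intro k _
              simp only [mul_left_comm _ ((m : ℂ)⁻¹ * (χ z)⁻¹ ^ k)]
              exact ((summable_mul_bdd he.summable_diag
                (indFun_norm_le H ψ (by norm_num) (hbd hf.1 (hξ.mul (hχ.pow k))))).of_norm).mul_left _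
        · simp [η, hχ.1, hfz, hm.ne']
        · intro c' hc' hne'
          rcases mem_insert.1 hc' with rfl | h
          · have hgeo : ∑ k ∈ range m, η c' ^ k = 0 := by
              rw [geom_sum_eq hne, hpow, sub_self, zero_div]
            simp [hgeo]
          · simp [hfF c' h hne']
  set u : G → ℂ := fun g => diag e g * indFun H ψ (fun b => if b = z then 1 else 0) g with hu
  have hK : ∀ g, ‖indFun H ψ (fun b => if b = z then (1 : ℂ) else 0) g‖ ≤ N * 1 :=
    indFun_norm_le H ψ zero_le_one fun b => by split_ifs <;> simp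
  by_contra hne
  obtain ⟨s, hs⟩ := (summable_iff_vanishing.1 he.summable_diag) (Set.Iio
    (‖∑' g, u g‖ / (3 * N + 3))) (Iio_mem_nhds (div_pos (norm_pos_iff.2 hne) (by positivity)))
  let F : Finset B := (s ×ˢ (univ : Finset (G ⧸ H))).image fun p =>
    if h : p.2.out⁻¹ * p.1 * p.2.out ∈ H then ψ ⟨_, h⟩ else z
  obtain ⟨f, hf, hfz, hfF⟩ := hsep F
  set v : G → ℂ := fun g => diag e g * indFun H ψ (fun b => f b * w b) g with hv
  have hwz : w z = -2 := by
    simp only [hw, hφ, mul_one, Complex.exp_pi_mul_I]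
    norm_num
  have hon : ∀ g ∈ s, v g = -2 * u g := by
    intro g hg
    simp only [hu, hv, indFun, mul_sum]
    refine sum_congr rfl fun a _ => ?_
    simp only [ext0]
    split_ifs with h1 h2
    · rw [h2, hfz, hwz]; ring
    · rw [hfF (ψ ⟨_, h1⟩) (mem_image.2 ⟨(g, a), mem_product.2 ⟨hg, mem_univ a⟩, dif_pos h1⟩) h2]
      ring
    · ring
  have hKv : ∀ g, ‖indFun H ψ (fun b => f b * w b) g‖ ≤ N * 2 :=
    indFun_norm_le H ψ (by norm_num) fun b => by simpa using hbd hf.1 IsChar.one b
  have hsu : Summable u := (summable_mul_bdd he.summable_diag hK).of_norm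
  have hsv : Summable v := (summable_mul_bdd he.summable_diag hKv).of_norm
  have hv0 : ∑' g, v g = 0 := by simpa using hf.2 _ IsChar.one
  have htail : ∑' g, (v g + 2 * u g) = 2 * ∑' g, u g := by
    rw [hsv.tsum_add (hsu.mul_left 2), hv0, tsum_mul_left, zero_add]
  have hle : ‖∑' g, (v g + 2 * u g)‖ ≤ (‖∑' g, u g‖ / (3 * N + 3)) * (4 * N) := by
    refine le_of_tendsto' ((hsv.add (hsu.mul_left 2)).hasSum.norm) fun t => ?_
    rw [← sum_inter_add_sum_sdiff t s]
    have h0 : ∑ g ∈ t ∩ s, (v g + 2 * u g) = 0 :=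
      sum_eq_zero fun g hg => by rw [hon g (mem_inter.1 hg).2]; ring
    rw [h0, zero_add]
    refine (norm_sum_le _ _).trans ?_
    calc ∑ g ∈ t \ s, ‖v g + 2 * u g‖ ≤ ∑ g ∈ t \ s, ‖diag e g‖ * (4 * N) := by
          refine sum_le_sum fun g _ => (norm_add_le _ _).trans ?_
          simp only [hu, hv, norm_mul, Complex.norm_two]
          nlinarith [norm_nonneg (diag e g), hK g, hKv g]
      _ = (∑ g ∈ t \ s, ‖diag e g‖) * (4 * N) := (sum_mul _ _ _).symm
      _ ≤ _ := mul_le_mul_of_nonneg_right (hs (t \ s) disjoint_sdiff_self_left).le (by positivity)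
  rw [htail, norm_mul, Complex.norm_two] at hle
  have hpos : 0 < ‖∑' g, u g‖ := norm_pos_iff.2 hne
  rw [div_mul_eq_mul_div, le_div_iff₀ (by positivity)] at hle
  nlinarith [show 0 ≤ N from Nat.cast_nonneg _]

end Vale.Agent.P184
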