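import Mathlib.GroupTheory.Abelianization.Defs
import Mathlib.Algebra.Group.Subgroup.Pointwise
import Mathlib.GroupTheory.Coset.Card
import Mathlib.Algebra.Group.Conj
import Vale.Agent.P184.Kernel

/-! The trace vanishes on a class separated by virtually abelian quotients. -/

namespace Vale.Agent.P184

open scoped BigOperators
open Finset

section Quot

variable {Q : Type*} [Group Q] (A : Subgroup Q) [hAn : A.Normal]
  (hA : ∀ a ∈ A, ∀ b ∈ A, a * b = b * a) (y : Q)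

/-- The subgroup `{a⁻¹ y a y⁻¹ : a ∈ A}`. -/
def delta : Subgroup Q where
  carrier := {u | ∃ a ∈ A, u = a⁻¹ * (y * a * y⁻¹)}
  one_mem' := ⟨1, A.one_mem, by group⟩
  mul_mem' := by
    rintro _ _ ⟨a, ha, rfl⟩ ⟨b, hb, rfl⟩
    refine ⟨b * a, A.mul_mem hb ha, ?_⟩
    have h : y * a * y⁻¹ * b⁻¹ = b⁻¹ * (y * a * y⁻¹) :=
      hA _ (hAn.conj_mem a ha y) _ (A.inv_mem hb)
    calc a⁻¹ * (y * a * y⁻¹) * (b⁻¹ * (y * b * y⁻¹))
        = a⁻¹ * (y * a * y⁻¹ * b⁻¹) * (y * b * y⁻¹) := by group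
      _ = a⁻¹ * (b⁻¹ * (y * a * y⁻¹)) * (y * b * y⁻¹) := by rw [h]
      _ = (b * a)⁻¹ * (y * (a * b) * y⁻¹) := by group
      _ = (b * a)⁻¹ * (y * (b * a) * y⁻¹) := by rw [hA b hb a ha]
  inv_mem' := by
    rintro _ ⟨a, ha, rfl⟩
    refine ⟨a⁻¹, A.inv_mem ha, ?_⟩
    have h : y * a⁻¹ * y⁻¹ * a = a * (y * a⁻¹ * y⁻¹) :=
      hA _ (hAn.conj_mem _ (A.inv_mem ha) y) _ ha
    rw [inv_inv, ← h]
    group

lemma mem_delta {u : Q} : u ∈ delta A hA y ↔ ∃ a ∈ A, u = a⁻¹ * (y * a * y⁻¹) := Iff.rfl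

lemma delta_conj (k : ℤ) {u : Q} (hu : u ∈ delta A hA y) :
    y ^ k * u * (y ^ k)⁻¹ ∈ delta A hA y := by
  obtain ⟨a, ha, rfl⟩ := (mem_delta A hA y).1 hu
  exact (mem_delta A hA y).2 ⟨y ^ k * a * (y ^ k)⁻¹, hAn.conj_mem a ha _, by group⟩

lemma delta_pow (k : ℤ) {b : Q} (hb : b ∈ A) :
    b⁻¹ * (y ^ k * b * (y ^ k)⁻¹) ∈ delta A hA y := by
  have h1 : b⁻¹ * (y * b * y⁻¹) ∈ delta A hA y := (mem_delta A hA y).2 ⟨b, hb, rfl⟩
  induction k using Int.induction_on with
  | zero => simp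
  | succ i ih =>
    have := (delta A hA y).mul_mem ih (delta_conj A hA y i h1)
    convert this using 1
    group
  | pred i ih =>
    have := (delta A hA y).mul_mem ih ((delta A hA y).inv_mem (delta_conj A hA y (-(i : ℤ) - 1) h1))
    convert this using 1
    group

/-- `A` together with `y`. -/
def cyc : Subgroup Q := A ⊔ Subgroup.zpowers y

lemma mem_cyc {s : Q} (hs : s ∈ cyc A y) : ∃ a ∈ A, ∃ k : ℤ, s = a * y ^ k := by
  obtain ⟨a, ha, t, ht, rfl⟩ := Subgroup.mem_sup_of_normal_left.1 hs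
  obtain ⟨k, rfl⟩ := Subgroup.mem_zpowers_iff.1 ht
  exact ⟨a, ha, k, rfl⟩

omit hAn in
lemma self_mem_cyc : y ∈ cyc A y := Subgroup.mem_sup_right (Subgroup.mem_zpowers y)

open scoped commutatorElement in
lemma commutator_cyc_le : commutator (cyc A y) ≤ (delta A hA y).comap (cyc A y).subtype := by
  rw [commutator_def, Subgroup.commutator_le]
  rintro ⟨s, hs⟩ - ⟨t, ht⟩ -
  obtain ⟨a, ha, k, rfl⟩ := mem_cyc A y hs
  obtain ⟨b, hb, l, rfl⟩ := mem_cyc A y ht
  rw [Subgroup.mem_comap, map_commutatorElement, commutatorElement_def]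
  simp only [Subgroup.coe_subtype]
  have hb' := hAn.conj_mem b hb (y ^ k)
  have ha' := hAn.conj_mem _ (A.inv_mem ha) (y ^ l)
  have e : a * y ^ k * (b * y ^ l) * (a * y ^ k)⁻¹ * (b * y ^ l)⁻¹
      = (b⁻¹ * (y ^ k * b * (y ^ k)⁻¹)) * (a⁻¹ * (y ^ l * a * (y ^ l)⁻¹))⁻¹ := by
    calc a * y ^ k * (b * y ^ l) * (a * y ^ k)⁻¹ * (b * y ^ l)⁻¹
        = a * (y ^ k * b * (y ^ k)⁻¹) * ((y ^ l * a⁻¹ * (y ^ l)⁻¹) * b⁻¹) := by group
      _ = (y ^ k * b * (y ^ k)⁻¹) * a * (b⁻¹ * (y ^ l * a⁻¹ * (y ^ l)⁻¹)) := by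
          rw [hA a ha _ hb', hA _ ha' _ (A.inv_mem hb)]
      _ = (y ^ k * b * (y ^ k)⁻¹) * (a * b⁻¹) * (y ^ l * a⁻¹ * (y ^ l)⁻¹) := by group
      _ = (y ^ k * b * (y ^ k)⁻¹) * b⁻¹ * (a * (y ^ l * a⁻¹ * (y ^ l)⁻¹)) := by
          rw [hA a ha _ (A.inv_mem hb)]; group
      _ = b⁻¹ * (y ^ k * b * (y ^ k)⁻¹) * ((y ^ l * a⁻¹ * (y ^ l)⁻¹) * a) := by
          rw [hA _ hb' _ (A.inv_mem hb), hA a ha _ ha']
      _ = _ := by group
  rw [e]
  exact (delta A hA y).mul_mem (delta_pow A hA y k hb) ((delta A hA y).inv_mem (delta_pow A hA y l ha))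

lemma mem_delta_of_of_eq {u v : cyc A y} (h : Abelianization.of u = Abelianization.of v) :
    (u : Q) * (v : Q)⁻¹ ∈ delta A hA y := by
  have h1 : u * v⁻¹ ∈ commutator (cyc A y) := by
    rw [← Abelianization.ker_of, MonoidHom.mem_ker, map_mul, map_inv, h, mul_inv_cancel]
  exact commutator_cyc_le A hA y h1

include hA in
lemma not_fin_order_of [A.FiniteIndex] (hy : ¬IsOfFinOrder y) :
    ¬IsOfFinOrder (Abelianization.of (⟨y, self_mem_cyc A y⟩ : cyc A y)) := by
  intro hf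
  obtain ⟨m, hm, hm1⟩ := isOfFinOrder_iff_pow_eq_one.1 hf
  obtain ⟨a, ha, hau⟩ := (mem_delta A hA y).1
    (show y ^ m ∈ delta A hA y by
      have := mem_delta_of_of_eq A hA y (u := (⟨y, self_mem_cyc A y⟩ : cyc A y) ^ m) (v := 1)
        (by rw [map_pow, map_one]; exact hm1)
      simpa using this)
  obtain ⟨M, hM, -, hMA⟩ := A.exists_pow_mem_of_index_ne_zero Subgroup.FiniteIndex.index_ne_zero y
  have key : ∀ j : ℕ, y ^ j * a * (y ^ j)⁻¹ = a * y ^ (m * j) := by
    intro j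
    induction j with
    | zero => simp
    | succ j ih =>
      have h2 : y ^ (j + 1) * a * (y ^ (j + 1))⁻¹
          = (y ^ j * a * (y ^ j)⁻¹) * (y ^ j * (a⁻¹ * (y * a * y⁻¹)) * (y ^ j)⁻¹) := by
        rw [pow_succ]; group
      rw [h2, ih, ← hau, mul_assoc, (Commute.pow_pow_self y j m).eq, mul_inv_cancel_right,
        ← pow_add, Nat.mul_succ]
  have h3 := key M
  rw [hA _ hMA _ ha, mul_inv_cancel_right] at h3
  exact hy (isOfFinOrder_iff_pow_eq_one.2 ⟨m * M, Nat.mul_pos hm hM, left_eq_mul.1 h3⟩)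

end Quot

variable {G : Type*} [Group G] {q : ℕ} {e : Fin q → Fin q → G → ℂ}

open scoped Classical in
/-- The trace of an idempotent pairs to zero with the preimage of an infinite-order class of a
virtually abelian quotient. -/
theorem pairing_class {Q : Type*} [Group Q] (he : IsIdem e) (π : G →* Q)
    (hπ : Function.Surjective π) (A : Subgroup Q) [A.Normal] [A.FiniteIndex]
    (hA : ∀ a ∈ A, ∀ b ∈ A, a * b = b * a) (g₀ : G) (h₀ : ¬IsOfFinOrder (π g₀)) :
    ∑' g, (if IsConj (π g₀) (π g) then diag e g else 0) = 0 := by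
  set y := π g₀ with hy
  let S := cyc A y
  haveI : S.FiniteIndex := Subgroup.finiteIndex_of_le (le_sup_left : A ≤ S)
  let H := S.comap π
  haveI : H.FiniteIndex := ⟨by
    rw [Subgroup.index_comap_of_surjective S hπ]; exact Subgroup.FiniteIndex.index_ne_zero⟩
  letI : Fintype (G ⧸ H) := Subgroup.fintypeQuotientOfFiniteIndex
  let ψ : H →* Abelianization S := Abelianization.of.comp (π.subgroupComap S)
  let z : Abelianization S := Abelianization.of ⟨y, self_mem_cyc A y⟩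
  have hpair := pairing_fibre H ψ he (not_fin_order_of A hA y h₀)
  let P : Q → Prop := fun u => ∃ hu : u ∈ S, Abelianization.of (⟨u, hu⟩ : S) = z
  have hP1 : ∀ u, P u → IsConj y u := by
    rintro u ⟨hu, h⟩
    obtain ⟨a, _, hau⟩ := (mem_delta A hA y).1 (mem_delta_of_of_eq A hA y h)
    refine isConj_iff.2 ⟨a⁻¹, ?_⟩
    rw [inv_inv]
    have : u = a⁻¹ * (y * a * y⁻¹) * y := by rw [← hau, inv_mul_cancel_right]
    rw [this]
    group
  have hP2 : ∀ (u s : Q), s ∈ S → (P (s⁻¹ * u * s) ↔ P u) := by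
    intro u s hs
    have hmem : s⁻¹ * u * s ∈ S ↔ u ∈ S := by
      rw [S.mul_mem_cancel_right hs, S.mul_mem_cancel_left (S.inv_mem hs)]
    refine ⟨fun ⟨h1, h2⟩ => ⟨hmem.1 h1, ?_⟩, fun ⟨h1, h2⟩ => ⟨hmem.2 h1, ?_⟩⟩
    · rw [← h2, show (⟨s⁻¹ * u * s, h1⟩ : S) = (⟨s, hs⟩ : S)⁻¹ * ⟨u, hmem.1 h1⟩ * ⟨s, hs⟩ from rfl,
        map_mul, map_mul, map_inv, inv_mul_cancel_comm]
    · rw [← h2, show (⟨s⁻¹ * u * s, hmem.2 h1⟩ : S) = (⟨s, hs⟩ : S)⁻¹ * ⟨u, h1⟩ * ⟨s, hs⟩ from rfl,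
        map_mul, map_mul, map_inv, inv_mul_cancel_comm]
  let T : Q → G ⧸ H → ℂ := fun u a => if P ((π a.out)⁻¹ * u * π a.out) then 1 else 0
  have hind : ∀ g, indFun H ψ (fun b => if b = z then 1 else 0) g = ∑ a, T (π g) a := by
    intro g
    refine sum_congr rfl fun a => fun _ => ?_
    have hg : π (a.out⁻¹ * g * a.out) = (π a.out)⁻¹ * π g * π a.out := by simp
    by_cases hm : a.out⁻¹ * g * a.out ∈ H
    · rw [ext0, dif_pos hm]
      refine if_congr ?_ rfl rfl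
      have hmS : π (a.out⁻¹ * g * a.out) ∈ S := hm
      rw [← hg]
      exact ⟨fun h => ⟨hmS, h⟩, fun ⟨_, h⟩ => h⟩
    · rw [ext0, dif_neg hm]
      refine (if_neg fun h => hm ?_).symm
      obtain ⟨h1, -⟩ := h
      rw [← hg] at h1
      exact h1
  set κ : ℂ := ∑ a, T y a with hκ
  have hT : ∀ g, ∑ a, T (π g) a = if IsConj y (π g) then κ else 0 := by
    intro g
    split_ifs with hc
    · obtain ⟨c, hc⟩ := isConj_iff.1 hc
      obtain ⟨x, rfl⟩ := hπ c
      rw [hκ, ← Equiv.sum_comp (MulAction.toPerm x : Equiv.Perm (G ⧸ H))]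
      refine sum_congr rfl fun a _ => if_congr ?_ rfl rfl
      have h1 : (QuotientGroup.mk ((x • a).out) : G ⧸ H) = QuotientGroup.mk (x * a.out) := by
        rw [QuotientGroup.out_eq']
        nth_rewrite 1 [← QuotientGroup.out_eq' a]
        rfl
      have h2 : π ((x • a).out⁻¹ * (x * a.out)) ∈ S := QuotientGroup.eq.1 h1
      simp only [MulAction.toPerm_apply]
      conv_rhs => rw [← hP2 _ _ (S.inv_mem h2)]
      refine Iff.of_eq (congrArg P ?_)
      rw [← hc]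
      simp only [map_mul, map_inv]
      group
    · refine sum_eq_zero fun a _ => if_neg fun h => hc ((hP1 _ h).trans (isConj_iff.2 ⟨π a.out, ?_⟩))
      group
  have hκ0 : κ ≠ 0 := by
    have hnn : κ = ((#{a : G ⧸ H | P ((π a.out)⁻¹ * y * π a.out)} : ℕ) : ℂ) := by
      simp only [hκ, T]
      rw [sum_boole]
    rw [hnn, Nat.cast_ne_zero]
    refine (card_pos.2 ⟨QuotientGroup.mk 1, ?_⟩).ne'
    rw [mem_filter]
    refine ⟨mem_univ _, ?_⟩
    have h1 : π (QuotientGroup.mk (1 : G) : G ⧸ H).out ∈ S := by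
      have h2 := QuotientGroup.eq.1 (QuotientGroup.out_eq' (QuotientGroup.mk (1 : G) : G ⧸ H)).symm
      simpa [H] using h2
    exact (hP2 _ _ h1).2 ⟨self_mem_cyc A y, rfl⟩
  have hsum : ∑' g, diag e g * indFun H ψ (fun b => if b = z then 1 else 0) g
      = κ * ∑' g, (if IsConj y (π g) then diag e g else 0) := by
    rw [← tsum_mul_left]
    refine tsum_congr fun g => ?_
    rw [hind, hT]
    split_ifs <;> ring
  exact (mul_eq_zero.1 (hsum.symm.trans hpair)).resolve_left hκ0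

/-- The coefficient of the Hattori-Stallings trace at the class of `g`. -/
noncomputable def traceAt (e : Fin q → Fin q → G → ℂ) (g : G) : ℂ := by
  classical exact ∑' h, if IsConj g h then ∑ i, e i i h else 0

/-- Every element of infinite order is separated from each other class in a virtually abelian
quotient in which it keeps infinite order. -/
def VASeparated (G : Type*) [Group G] : Prop :=
  ∀ g c : G, ¬IsOfFinOrder g → ∃ (Q : Type) (_ : Group Q) (π : G →* Q) (A : Subgroup Q),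
    A.Normal ∧ A.FiniteIndex ∧ (∀ a ∈ A, ∀ b ∈ A, a * b = b * a) ∧
      ¬IsOfFinOrder (π g) ∧ (IsConj (π g) (π c) → IsConj g c)

theorem traceAt_eq_zero (hG : VASeparated G) (he : IsIdem e) {g : G} (hg : ¬IsOfFinOrder g) :
    traceAt e g = 0 := by
  classical
  by_contra hne
  have hpos : 0 < ‖traceAt e g‖ / 2 := half_pos (norm_pos_iff.2 hne)
  obtain ⟨s, hs⟩ := (summable_iff_vanishing.1 he.summable_diag) (Set.Iio (‖traceAt e g‖ / 2))
    (Iio_mem_nhds hpos)
  choose Q instQ π A hAn hAf hA hord hsep using fun c : {c // c ∈ insert g s} => hG g c hg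
  let P : G →* ∀ c, Q c := MonoidHom.pi π
  let Rg := P.range
  let A' : Subgroup Rg := ⨅ c, (A c).comap ((Pi.evalMonoidHom Q c).comp Rg.subtype)
  haveI : A'.Normal := Subgroup.normal_iInf_normal fun c => (hAn c).comap _
  haveI : A'.FiniteIndex := Subgroup.finiteIndex_iInf fun c => ⟨by
    rw [Subgroup.index_comap]
    haveI := hAf c
    exact Subgroup.isFiniteRelIndex_of_finiteIndex.relIndex_ne_zero⟩
  have hA' : ∀ a ∈ A', ∀ b ∈ A', a * b = b * a := fun a ha b hb => Subtype.ext <| funext fun c =>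
    hA c _ ((Subgroup.mem_iInf.1 ha) c) _ ((Subgroup.mem_iInf.1 hb) c)
  have h0 : ¬IsOfFinOrder (P.rangeRestrict g) := fun h =>
    hord ⟨g, mem_insert_self _ _⟩
      (MonoidHom.isOfFinOrder ((Pi.evalMonoidHom Q _).comp Rg.subtype) h)
  have hzero := pairing_class he P.rangeRestrict P.rangeRestrict_surjective A' hA' g h0
  set v : G → ℂ := fun h => if IsConj (P.rangeRestrict g) (P.rangeRestrict h) then diag e h else 0
  set u : G → ℂ := fun h => if IsConj g h then diag e h else 0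
  have hbv : ∀ h, ‖v h‖ ≤ ‖diag e h‖ := fun h => by simp only [v]; split_ifs <;> simp
  have hbu : ∀ h, ‖u h‖ ≤ ‖diag e h‖ := fun h => by simp only [u]; split_ifs <;> simp
  have hsv : Summable v := Summable.of_norm_bounded he.summable_diag hbv
  have hsu : Summable u := Summable.of_norm_bounded he.summable_diag hbu
  have hpull : ∀ h, IsConj g h → IsConj (P.rangeRestrict g) (P.rangeRestrict h) := fun h hc =>
    P.rangeRestrict.map_isConj hc
  have hon : ∀ h ∈ s, v h = u h := by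
    intro h hh
    have : IsConj (P.rangeRestrict g) (P.rangeRestrict h) ↔ IsConj g h :=
      ⟨fun hc => hsep ⟨h, mem_insert_of_mem hh⟩
        (((Pi.evalMonoidHom Q ⟨h, mem_insert_of_mem hh⟩).comp Rg.subtype).map_isConj hc), hpull h⟩
    simp only [v, u, this]
  have htail : ∀ h, ‖v h - u h‖ ≤ ‖diag e h‖ := fun h => by
    simp only [v, u]
    split_ifs with h1 h2 <;> simp_all
  have hd : ∑' h, (v h - u h) = -traceAt e g := by
    rw [hsv.tsum_sub hsu, hzero, zero_sub]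
    simp [u, traceAt, diag]
  have hle : ‖∑' h, (v h - u h)‖ ≤ ‖traceAt e g‖ / 2 := by
    refine le_of_tendsto' (hsv.sub hsu).hasSum.norm fun t => ?_
    rw [← sum_inter_add_sum_sdiff t s,
      sum_eq_zero fun h hh => by rw [hon h (mem_inter.1 hh).2, sub_self], zero_add]
    exact ((norm_sum_le _ _).trans (sum_le_sum fun h _ => htail h)).trans
      (hs _ disjoint_sdiff_self_left).le
  rw [hd, norm_neg] at hle
  linarith

end Vale.Agent.P184
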