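import Vale.Agent.P184.Finite
import Vale.Agent.P184.VirtAbelian

/-! A bounded equivariant height function kills the `ℓ¹` trace of a conjugacy class. -/

namespace Vale.Agent.P184

open Finset

variable {G : Type*} [Group G] {q : ℕ}

lemma conv_real {f k : G → ℝ} (hf0 : ∀ g, 0 ≤ f g) (hk0 : ∀ g, 0 ≤ k g) (hf : Summable f)
    (hk : Summable k) :
    Summable (fun g => ∑' h, f h * k (h⁻¹ * g)) ∧ (∀ g, Summable fun h => f h * k (h⁻¹ * g)) ∧
      ∑' g, ∑' h, f h * k (h⁻¹ * g) = (∑' h, f h) * ∑' h, k h := by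
  let σ : G × G ≃ G × G :=
    { toFun := fun p => (p.2, p.2⁻¹ * p.1)
      invFun := fun p => (p.1 * p.2, p.1)
      left_inv := fun p => by simp
      right_inv := fun p => by simp }
  have h0 : Summable fun p : G × G => f p.1 * k p.2 := hf.mul_of_nonneg hk hf0 hk0
  have h2 : Summable fun p : G × G => f p.2 * k (p.2⁻¹ * p.1) := σ.summable_iff.2 h0
  refine ⟨h2.prod, fun g => h2.prod_factor g, ?_⟩
  rw [← h2.tsum_prod, hf.tsum_mul_tsum hk h0, ← σ.tsum_eq (fun p : G × G => f p.1 * k p.2)]
  rfl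

/-- The truncation of a function to a finite set, as an element of the group ring. -/
noncomputable def trunc (s : Finset G) (f : G → ℂ) : MonoidAlgebra ℂ G :=
  ∑ g ∈ s, MonoidAlgebra.single g (f g)

lemma trunc_coeff [DecidableEq G] (s : Finset G) (f : G → ℂ) (g : G) :
    (trunc s f).coeff g = if g ∈ s then f g else 0 := by
  simp [trunc, MonoidAlgebra.coeff_sum, Finsupp.finsetSum_apply, Finsupp.single_apply]

lemma nw_one_eq_tsum (x : MonoidAlgebra ℂ G) :
    nw (fun _ => 1) x = ∑' g, ‖x.coeff g‖ := by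
  rw [tsum_eq_sum (s := x.coeff.support) fun g hg => by
    rw [Finsupp.notMem_support_iff.1 hg, norm_zero]]
  simp [nw, Finsupp.sum]

lemma coeff_mul_eq_tsum (x y : MonoidAlgebra ℂ G) (g : G) :
    (x * y).coeff g = ∑' h, x.coeff h * y.coeff (h⁻¹ * g) := by
  classical
  rw [tsum_eq_sum (s := x.coeff.support) fun h hh => by
    rw [Finsupp.notMem_support_iff.1 hh, zero_mul], MonoidAlgebra.coeff_mul, Finsupp.sum]
  refine sum_congr rfl fun h _ => ?_
  rw [Finsupp.sum, sum_eq_single (h⁻¹ * g)]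
  · simp
  · intro b _ hb
    rw [if_neg fun e => hb (by rw [← e, inv_mul_cancel_left])]
  · intro hb
    rw [Finsupp.notMem_support_iff.1 hb, mul_zero]
    simp

/-- Small defect of a truncation of an idempotent. -/
lemma trunc_defect {e : Fin q → Fin q → G → ℂ} (he : IsIdem e) {δ E : ℝ} (s : Finset G)
    (A : Matrix (Fin q) (Fin q) (MonoidAlgebra ℂ G)) (hA : ∀ i j, A i j = trunc s (e i j))
    (hδ : ∀ i j, ∑' g, ‖e i j g - (A i j).coeff g‖ ≤ δ) (hE : ∀ i j, ∑' g, ‖e i j g‖ ≤ E) :
    mn (fun _ => 1) A ≤ q * q * E ∧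
      mn (fun _ => 1) (A * A - A) ≤ q * q * (q * (2 * E) + 1) * δ := by
  classical
  have hle : ∀ i j g, ‖(A i j).coeff g‖ ≤ ‖e i j g‖ := fun i j g => by
    rw [hA, trunc_coeff]; split_ifs <;> simp
  have hsd : ∀ i j, Summable fun g => ‖e i j g - (A i j).coeff g‖ := fun i j =>
    Summable.of_nonneg_of_le (fun _ => norm_nonneg _) (fun g => by
      rw [hA, trunc_coeff]; split_ifs <;> simp) (he.summable i j)
  have hsA : ∀ i j, Summable fun g => ‖(A i j).coeff g‖ := fun i j =>
    Summable.of_nonneg_of_le (fun _ => norm_nonneg _) (hle i j) (he.summable i j)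
  constructor
  · refine (sum_le_sum fun i _ => sum_le_sum fun j _ => ?_).trans_eq
      (b := ∑ _i : Fin q, ∑ _j : Fin q, E) (by simp [mul_assoc])
    rw [nw_one_eq_tsum]
    exact ((hsA i j).tsum_le_tsum (hle i j) (he.summable i j)).trans (hE i j)
  · refine (sum_le_sum fun i _ => sum_le_sum fun k _ => ?_).trans_eq
      (b := ∑ _i : Fin q, ∑ _j : Fin q, ((q:ℝ) * (2 * E) + 1) * δ) (by simp [mul_assoc])
    rw [nw_one_eq_tsum]
    let P : Fin q → G → ℝ := fun j g =>
      (∑' h, ‖e i j h - (A i j).coeff h‖ * ‖e j k (h⁻¹ * g)‖)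
        + ∑' h, ‖e i j h‖ * ‖e j k (h⁻¹ * g) - (A j k).coeff (h⁻¹ * g)‖
    have c1 := fun j => conv_real (fun g => norm_nonneg (e i j g - (A i j).coeff g))
      (fun g => norm_nonneg (e j k g)) (hsd i j) (he.summable j k)
    have c2 := fun j => conv_real (fun g => norm_nonneg (e i j g))
      (fun g => norm_nonneg (e j k g - (A j k).coeff g)) (he.summable i j) (hsd j k)
    have cee := fun j => conv_real (fun g => norm_nonneg (e i j g))
      (fun g => norm_nonneg (e j k g)) (he.summable i j) (he.summable j k)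
    have hPs : ∀ j, Summable (P j) := fun j => (c1 j).1.add (c2 j).1
    have hpt : ∀ g, ‖((A * A - A) i k).coeff g‖ ≤
        (∑ j, P j g) + ‖e i k g - (A i k).coeff g‖ := by
      intro g
      have hco : ((A * A - A) i k).coeff g
          = (∑ j, ∑' h, (A i j).coeff h * (A j k).coeff (h⁻¹ * g)) - (A i k).coeff g := by
        rw [Matrix.sub_apply, MonoidAlgebra.coeff_sub, Finsupp.sub_apply, Matrix.mul_apply,
          MonoidAlgebra.coeff_sum, Finsupp.finsetSum_apply]
        simp only [coeff_mul_eq_tsum]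
      have hE2 : ∀ j, Summable fun h => e i j h * e j k (h⁻¹ * g) := fun j =>
        Summable.of_norm (((cee j).2.1 g).congr fun h => (norm_mul _ _).symm)
      have hA2 : ∀ j, Summable fun h => (A i j).coeff h * (A j k).coeff (h⁻¹ * g) := fun j =>
        Summable.of_norm_bounded ((cee j).2.1 g) fun h => by
          rw [norm_mul]
          exact mul_le_mul (hle _ _ _) (hle _ _ _) (norm_nonneg _) (norm_nonneg _)
      have hsplit : ((A * A - A) i k).coeff g
          = (∑ j, ∑' h, ((A i j).coeff h * (A j k).coeff (h⁻¹ * g) - e i j h * e j k (h⁻¹ * g)))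
            + (e i k g - (A i k).coeff g) := by
        rw [hco, sum_congr rfl fun j _ => (hA2 j).tsum_sub (hE2 j), sum_sub_distrib, he.idem]
        ring
      rw [hsplit]
      refine (norm_add_le _ _).trans (add_le_add ((norm_sum_le _ _).trans ?_) le_rfl)
      refine sum_le_sum fun j _ => ?_
      change _ ≤ (∑' h, _) + ∑' h, _
      rw [← ((c1 j).2.1 g).tsum_add ((c2 j).2.1 g)]
      refine tsum_of_norm_bounded (((c1 j).2.1 g).add ((c2 j).2.1 g)).hasSum fun h => ?_
      have key : ∀ a b a' b' : ℂ, ‖a'‖ ≤ ‖a‖ →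
          ‖a' * b' - a * b‖ ≤ ‖a - a'‖ * ‖b‖ + ‖a‖ * ‖b - b'‖ := by
        intro a b a' b' ha
        calc ‖a' * b' - a * b‖ = ‖(a' - a) * b + a' * (b' - b)‖ := by ring_nf
          _ ≤ ‖a' - a‖ * ‖b‖ + ‖a'‖ * ‖b' - b‖ :=
            (norm_add_le _ _).trans (add_le_add (norm_mul_le _ _) (norm_mul_le _ _))
          _ ≤ _ := by
            rw [norm_sub_rev a' a, norm_sub_rev b' b]
            exact add_le_add le_rfl (mul_le_mul_of_nonneg_right ha (norm_nonneg _))
      exact key _ _ _ _ (hle _ _ _)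
    have hsR : Summable fun g => (∑ j, P j g) + ‖e i k g - (A i k).coeff g‖ :=
      (summable_sum fun j _ => hPs j).add (hsd i k)
    have hsL : Summable fun g => ‖((A * A - A) i k).coeff g‖ :=
      Summable.of_nonneg_of_le (fun _ => norm_nonneg _) hpt hsR
    refine (hsL.tsum_le_tsum hpt hsR).trans ?_
    rw [(summable_sum fun j _ => hPs j).tsum_add (hsd i k), Summable.tsum_finsetSum fun j _ => hPs j]
    have hj : ∀ j, ∑' g, P j g ≤ 2 * E * δ := by
      intro j
      have hE0 : 0 ≤ E := (tsum_nonneg fun _ => norm_nonneg _).trans (hE i j)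
      have hδ0 : 0 ≤ δ := (tsum_nonneg fun _ => norm_nonneg _).trans (hδ i j)
      rw [(c1 j).1.tsum_add (c2 j).1, (c1 j).2.2, (c2 j).2.2]
      have e1 := mul_le_mul (hδ i j) (hE j k) (tsum_nonneg fun _ => norm_nonneg _) hδ0
      have e2 := mul_le_mul (hE i j) (hδ j k) (tsum_nonneg fun _ => norm_nonneg _) hE0
      linarith
    calc (∑ j, ∑' g, P j g) + ∑' g, ‖e i k g - (A i k).coeff g‖
        ≤ (∑ _j : Fin q, 2 * E * δ) + δ := add_le_add (sum_le_sum fun j _ => hj j) (hδ i k)
      _ = ((q:ℝ) * (2 * E) + 1) * δ := by simp; ring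

/-- If some function on `G` has bounded right increments and is translated by the centraliser of
`g`, nontrivially by `g` itself, then the trace of every idempotent vanishes at the class of `g`. -/
theorem traceAt_eq_zero_of_height {e : Fin q → Fin q → G → ℂ} (he : IsIdem e) (g : G)
    (F : G → ℝ) (hbd : ∀ b, ∃ C : ℝ, ∀ k, |F (k * b) - F k| ≤ C)
    (heq : ∀ z k, z * g = g * z → F (z * k) - F k = F z - F 1) (hne : F g ≠ F 1) :
    traceAt e g = 0 := by
  classical
  let M : G → ℝ := fun b => ⨆ k, |F (k * b) - F k|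
  have hbdd : ∀ b, BddAbove (Set.range fun k => |F (k * b) - F k|) := fun b => by
    obtain ⟨C, hC⟩ := hbd b
    exact ⟨C, by rintro _ ⟨k, rfl⟩; exact hC k⟩
  have hMle : ∀ b k, |F (k * b) - F k| ≤ M b := fun b k => le_ciSup (hbdd b) k
  have hM : ∀ b, 0 ≤ M b := fun b => (abs_nonneg _).trans (hMle b 1)
  have hMmul : ∀ a b, M (a * b) ≤ M a + M b := fun a b => ciSup_le fun k => by
    have := abs_sub_le (F (k * (a * b))) (F (k * a)) (F k)
    have h1 := hMle b (k * a)
    rw [mul_assoc] at h1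
    linarith [hMle a k]
  let κ : G → G → ℝ := fun x b =>
    if h : ∃ k : G, x = k⁻¹ * g * k then F (h.choose * b) - F h.choose else 0
  have hκ : ∀ x b k, x = k⁻¹ * g * k → κ x b = F (k * b) - F k := by
    intro x b k hk
    have h : ∃ k : G, x = k⁻¹ * g * k := ⟨k, hk⟩
    simp only [κ, dif_pos h]
    set c := h.choose
    have hc : c⁻¹ * g * c = k⁻¹ * g * k := h.choose_spec.symm.trans hk
    have hz : (c * k⁻¹) * g = g * (c * k⁻¹) := by
      calc (c * k⁻¹) * g = c * (k⁻¹ * g * k) * k⁻¹ := by group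
        _ = c * (c⁻¹ * g * c) * k⁻¹ := by rw [hc]
        _ = g * (c * k⁻¹) := by group
    have e1 := heq _ (k * b) hz
    have e2 := heq _ k hz
    rw [show c * k⁻¹ * (k * b) = c * b by group] at e1
    rw [show c * k⁻¹ * k = c by group] at e2
    linarith
  have hex : ∀ x : G, IsConj g x → ∃ k : G, x = k⁻¹ * g * k := fun x hx => by
    obtain ⟨c, hc⟩ := isConj_iff.1 hx
    exact ⟨c⁻¹, by rw [inv_inv, ← hc]⟩
  let ψ : G → G → ℂ := fun a b => if IsConj g (a * b) then ((κ (b * a) b : ℝ) : ℂ) else 0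
  have hrot : ∀ a b : G, IsConj g (a * b) → IsConj g (b * a) := fun a b h =>
    h.trans (isConj_iff.2 ⟨b, by group⟩)
  have hrot' : ∀ a b : G, IsConj g (a * b) ↔ IsConj g (b * a) :=
    fun a b => ⟨hrot a b, hrot b a⟩
  have hψ : ∀ a b c, ψ a (b * c) = ψ (c * a) b + ψ (a * b) c := by
    intro a b c
    by_cases h : IsConj g (a * (b * c))
    · have h2 : IsConj g (c * a * b) := by
        rw [mul_assoc]; exact hrot (a * b) c (by rwa [mul_assoc])
      have h3 : IsConj g (a * b * c) := by rwa [mul_assoc]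
      simp only [ψ, if_pos h, if_pos h2, if_pos h3]
      obtain ⟨k, hk⟩ := hex _ (hrot a (b * c) h)
      rw [hκ _ (b * c) k hk, hκ (b * (c * a)) b k (by rw [← hk, mul_assoc]),
        hκ (c * (a * b)) c (k * b) (by
          rw [show (k * b)⁻¹ * g * (k * b) = b⁻¹ * (k⁻¹ * g * k) * b by group, ← hk]; group)]
      push_cast
      rw [mul_assoc k b c]
      ring
    · have h2 : ¬IsConj g (c * a * b) := fun h' => h <| by
        rw [mul_assoc] at h'
        rw [← mul_assoc]; exact hrot c (a * b) h'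
      have h3 : ¬IsConj g (a * b * c) := fun h' => h (by rwa [mul_assoc] at h')
      simp only [ψ, if_neg h, if_neg h2, if_neg h3, add_zero]
  have hψM : ∀ a b, ‖ψ a b‖ ≤ M b := by
    intro a b
    simp only [ψ]
    split_ifs with h
    · obtain ⟨k, hk⟩ := hex _ (hrot a b h)
      rw [hκ _ b k hk, Complex.norm_real, Real.norm_eq_abs]
      exact hMle b k
    · simpa using hM b
  set c : ℂ := ((F g - F 1 : ℝ) : ℂ) with hc
  have hc0 : c ≠ 0 := by rw [hc]; exact_mod_cast sub_ne_zero.2 hne
  have hψ1 : ∀ x, ψ 1 x = if IsConj g x then c else 0 := by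
    intro x
    simp only [ψ, one_mul, mul_one]
    split_ifs with h
    · obtain ⟨k, hk⟩ := hex _ h
      rw [hκ x x k hk, hc]
      congr 1
      rw [show k * x = g * k by rw [hk]; group]
      exact heq g k rfl
    · rfl
  set K := ‖c‖ with hKdef
  have hK : ∀ x, ‖ψ 1 x‖ ≤ K := fun x => by
    rw [hψ1]; split_ifs <;> simp [K]
  -- approximate by truncations
  set E := ∑ i, ∑ j, ∑' x, ‖e i j x‖ with hEdef
  have hE0 : 0 ≤ E := sum_nonneg fun _ _ => sum_nonneg fun _ _ => tsum_nonneg fun _ => norm_nonneg _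
  have hE : ∀ i j, ∑' x, ‖e i j x‖ ≤ E := fun i j =>
    (single_le_sum (f := fun j => ∑' x, ‖e i j x‖) (fun _ _ => tsum_nonneg fun _ => norm_nonneg _)
      (mem_univ j)).trans (single_le_sum (f := fun i => ∑ j, ∑' x, ‖e i j x‖)
        (fun _ _ => sum_nonneg fun _ _ => tsum_nonneg fun _ => norm_nonneg _) (mem_univ i))
  set A0 : ℝ := q * q * E
  set Q : ℝ := q * q * (q * (2 * E) + 1)
  have hA0 : 0 ≤ A0 := by positivity
  have hQ : 0 ≤ Q := by positivity
  have happ : ∀ δ > 0, Q * δ * (3 + 2 * A0) ≤ 1 / 28 →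
      ‖c * traceAt e g‖ ≤ K * (2 * (Q * δ) * (3 + 2 * A0)) + K * ((q:ℝ) * δ) := by
    intro δ hδ0 hsmall
    have hex' : ∃ s : Finset G, ∀ i j, ∑' x : {x // x ∉ s}, ‖e i j x‖ ≤ δ := by
      have h : ∀ p : Fin q × Fin q, ∀ᶠ s : Finset G in Filter.atTop,
          ∑' x : {x // x ∉ s}, ‖e p.1 p.2 x‖ ≤ δ := fun p =>
        (tendsto_tsum_compl_atTop_zero fun x => ‖e p.1 p.2 x‖).eventually (eventually_le_nhds hδ0)
      obtain ⟨s, hs⟩ := (Filter.eventually_all.2 h).exists
      exact ⟨s, fun i j => hs (i, j)⟩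
    obtain ⟨s, hs⟩ := hex'
    let A : Matrix (Fin q) (Fin q) (MonoidAlgebra ℂ G) :=
      Matrix.of fun i j => trunc s (e i j)
    have hA : ∀ i j, A i j = trunc s (e i j) := fun i j => rfl
    have htail : ∀ i j, ∑' x, ‖e i j x - (A i j).coeff x‖ ≤ δ := by
      intro i j
      refine le_trans (le_of_eq ?_) (hs i j)
      have hind : (fun x => ‖e i j x - (A i j).coeff x‖)
          = Set.indicator {x | x ∉ s} fun x => ‖e i j x‖ := by
        funext x
        rw [hA, trunc_coeff, Set.indicator_apply]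
        by_cases hx : x ∈ s <;> simp [hx]
      rw [hind]
      exact (tsum_subtype {x | x ∉ s} fun x => ‖e i j x‖).symm
    obtain ⟨b1, b2⟩ := trunc_defect he s A hA htail hE
    have hb := trace_bound hM hMmul hψ hψM hK A b2 b1 hsmall
    -- compare the trace of the truncation with that of `e`
    have hAfin : ∀ i, lin (ψ 1) (A i i) = ∑' x, (A i i).coeff x * ψ 1 x := fun i => by
      rw [tsum_eq_sum (s := (A i i).coeff.support) fun x hx => by
        rw [Finsupp.notMem_support_iff.1 hx, zero_mul]]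
      rfl
    have hs1 : ∀ i, Summable fun x => e i i x * ψ 1 x := fun i =>
      (summable_mul_bdd (he.summable i i) hK).of_norm
    have hs2 : ∀ i, Summable fun x => (A i i).coeff x * ψ 1 x := fun i =>
      summable_of_hasFiniteSupport <| ((A i i).coeff.finite_support).subset fun x hx => by
        simp only [Function.mem_support] at hx ⊢
        exact left_ne_zero_of_mul hx
    have htr : c * traceAt e g = ∑ i, ∑' x, e i i x * ψ 1 x := by
      rw [← Summable.tsum_finsetSum fun i _ => hs1 i, traceAt, ← tsum_mul_left]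
      refine tsum_congr fun x => ?_
      rw [hψ1, ← sum_mul]
      split_ifs <;> ring
    have hdiff : ‖c * traceAt e g - mlin (ψ 1) A‖ ≤ K * ((q:ℝ) * δ) := by
      rw [htr, mlin, ← sum_sub_distrib]
      refine (norm_sum_le _ _).trans ((sum_le_sum fun i _ => ?_).trans_eq
        (b := ∑ _i : Fin q, δ * K) (by simp; ring))
      have hsd : Summable fun x => ‖e i i x - (A i i).coeff x‖ :=
        Summable.of_nonneg_of_le (fun _ => norm_nonneg _) (fun x => by
          rw [hA, trunc_coeff]; split_ifs <;> simp) (he.summable i i)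
      rw [hAfin, ← (hs1 i).tsum_sub (hs2 i)]
      refine (tsum_of_norm_bounded (hsd.mul_right K).hasSum fun x => ?_).trans ?_
      · rw [← sub_mul, norm_mul]
        exact mul_le_mul_of_nonneg_left (hK x) (norm_nonneg _)
      · rw [tsum_mul_right]
        exact mul_le_mul_of_nonneg_right (htail i i) (norm_nonneg _)
    have := norm_add_le (mlin (ψ 1) A) (c * traceAt e g - mlin (ψ 1) A)
    rw [add_sub_cancel] at this
    linarith
  have hzero : ‖c * traceAt e g‖ ≤ 0 := by
    refine le_of_forall_pos_le_add fun η hη => ?_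
    rw [zero_add]
    set D := K * (2 * Q * (3 + 2 * A0)) + K * (q:ℝ) + 1 with hD
    have hD0 : 0 < D := by positivity
    set T := Q * (3 + 2 * A0) + 1 with hT
    have hT0 : 0 < T := by positivity
    have hδ : 0 < min (η / D) (1 / (28 * T)) := by positivity
    set δ := min (η / D) (1 / (28 * T))
    have h1 : T * δ ≤ 1 / 28 := by
      calc T * δ ≤ T * (1 / (28 * T)) := mul_le_mul_of_nonneg_left (min_le_right _ _) hT0.le
        _ = 1 / 28 := by field_simp
    have h2 : D * δ ≤ η := by
      calc D * δ ≤ D * (η / D) := mul_le_mul_of_nonneg_left (min_le_left _ _) hD0.le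
        _ = η := by field_simp
    refine (happ δ hδ ?_).trans ?_
    · rw [hT] at h1; linarith
    · rw [hD] at h2; linarith
  exact (mul_eq_zero.1 (norm_le_zero_iff.1 hzero)).resolve_left hc0

end Vale.Agent.P184
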