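import Mathlib.Algebra.MonoidAlgebra.Basic
import Mathlib.Data.Matrix.Mul
import Mathlib.Analysis.Complex.Basic
import Mathlib.Analysis.SpecificLimits.Basic
import Mathlib.Tactic.NoncommRing

/-! A cyclic one-cocycle kills the trace of almost idempotent matrices over the group ring. -/

namespace Vale.Agent.P184

open Finset

variable {G : Type*} [Group G] {q : ℕ}

/-- Weighted absolute coefficient sum of a group ring element. -/
noncomputable def nw (w : G → ℝ) (x : MonoidAlgebra ℂ G) : ℝ :=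
  x.coeff.sum fun g a => ‖a‖ * w g

/-- Linear functional of a group ring element. -/
noncomputable def lin (W : G → ℂ) (x : MonoidAlgebra ℂ G) : ℂ :=
  x.coeff.sum fun g a => a * W g

/-- Bilinear form of group ring elements. -/
noncomputable def bil (ψ : G → G → ℂ) (x y : MonoidAlgebra ℂ G) : ℂ :=
  x.coeff.sum fun g a => a * lin (ψ g) y

lemma lin_add (W : G → ℂ) (x y : MonoidAlgebra ℂ G) : lin W (x + y) = lin W x + lin W y := by
  classical
  simp only [lin, MonoidAlgebra.coeff_add]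
  exact Finsupp.sum_add_index' (fun g => zero_mul _) fun g a b => add_mul _ _ _

lemma lin_zero (W : G → ℂ) : lin W 0 = 0 := by simp [lin]

lemma lin_sub (W : G → ℂ) (x y : MonoidAlgebra ℂ G) : lin W (x - y) = lin W x - lin W y := by
  have h := lin_add W (x - y) y
  rw [sub_add_cancel] at h
  rw [h, add_sub_cancel_right]

lemma lin_single (W : G → ℂ) (g : G) (a : ℂ) : lin W (MonoidAlgebra.single g a) = a * W g := by
  simp [lin]

lemma lin_sum {ι : Type*} (W : G → ℂ) (s : Finset ι) (f : ι → MonoidAlgebra ℂ G) :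
    lin W (∑ i ∈ s, f i) = ∑ i ∈ s, lin W (f i) :=
  map_sum (AddMonoidHom.mk' (lin W) (lin_add W)) _ _

lemma bil_add_left (ψ : G → G → ℂ) (x y z : MonoidAlgebra ℂ G) :
    bil ψ (x + y) z = bil ψ x z + bil ψ y z := by
  classical
  simp only [bil, MonoidAlgebra.coeff_add]
  exact Finsupp.sum_add_index' (fun g => zero_mul _) fun g a b => add_mul _ _ _

lemma bil_add_right (ψ : G → G → ℂ) (x y z : MonoidAlgebra ℂ G) :
    bil ψ x (y + z) = bil ψ x y + bil ψ x z := by
  classical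
  simp only [bil, lin_add, mul_add]
  exact Finsupp.sum_add

lemma bil_zero_left (ψ : G → G → ℂ) (z : MonoidAlgebra ℂ G) : bil ψ 0 z = 0 := by simp [bil]

lemma bil_zero_right (ψ : G → G → ℂ) (z : MonoidAlgebra ℂ G) : bil ψ z 0 = 0 := by
  simp [bil, lin_zero]

lemma bil_single (ψ : G → G → ℂ) (g h : G) (a b : ℂ) :
    bil ψ (MonoidAlgebra.single g a) (MonoidAlgebra.single h b) = a * (b * ψ g h) := by
  simp [bil, lin_single, Finsupp.sum_single_index]

lemma lin_mul {ψ : G → G → ℂ} (hψ : ∀ a b c, ψ a (b * c) = ψ (c * a) b + ψ (a * b) c)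
    (x y : MonoidAlgebra ℂ G) : lin (ψ 1) (x * y) = bil ψ y x + bil ψ x y := by
  induction x using MonoidAlgebra.induction_linear with
  | zero => simp [lin_zero, bil_zero_left, bil_zero_right]
  | add x x' hx hx' => rw [add_mul, lin_add, bil_add_left, bil_add_right, hx, hx']; ring
  | single g a =>
    induction y using MonoidAlgebra.induction_linear with
    | zero => simp [lin_zero, bil_zero_left, bil_zero_right]
    | add y y' hy hy' => rw [mul_add, lin_add, bil_add_left, bil_add_right, hy, hy']; ring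
    | single h b =>
      rw [MonoidAlgebra.single_mul_single, lin_single, bil_single, bil_single, hψ 1 g h,
        mul_one, one_mul]
      ring

lemma bil_mul {ψ : G → G → ℂ} (hψ : ∀ a b c, ψ a (b * c) = ψ (c * a) b + ψ (a * b) c)
    (x y z : MonoidAlgebra ℂ G) : bil ψ x (y * z) = bil ψ (z * x) y + bil ψ (x * y) z := by
  induction x using MonoidAlgebra.induction_linear with
  | zero => simp [bil_zero_left]
  | add x x' hx hx' =>
    simp only [mul_add, add_mul, bil_add_left, hx, hx']; ring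
  | single g a =>
    induction y using MonoidAlgebra.induction_linear with
    | zero => simp [bil_zero_left, bil_zero_right]
    | add y y' hy hy' =>
      simp only [mul_add, add_mul, bil_add_left, bil_add_right, hy, hy']; ring
    | single h b =>
      induction z using MonoidAlgebra.induction_linear with
      | zero => simp [bil_zero_left, bil_zero_right]
      | add z z' hz hz' =>
        simp only [mul_add, add_mul, bil_add_left, bil_add_right, hz, hz']; ring
      | single k c =>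
        simp only [MonoidAlgebra.single_mul_single, bil_single, hψ g h k]
        ring

lemma nw_nonneg {w : G → ℝ} (hw : ∀ g, 0 ≤ w g) (x : MonoidAlgebra ℂ G) : 0 ≤ nw w x :=
  Finset.sum_nonneg fun g _ => mul_nonneg (norm_nonneg _) (hw g)

lemma nw_eq_sum (w : G → ℝ) (x : MonoidAlgebra ℂ G) {s : Finset G} (hs : x.coeff.support ⊆ s) :
    nw w x = ∑ g ∈ s, ‖x.coeff g‖ * w g :=
  Finsupp.sum_of_support_subset _ hs (fun g a => ‖a‖ * w g) fun g _ => by simp

lemma nw_add_le {w : G → ℝ} (hw : ∀ g, 0 ≤ w g) (x y : MonoidAlgebra ℂ G) :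
    nw w (x + y) ≤ nw w x + nw w y := by
  classical
  rw [nw_eq_sum w (x + y) (s := x.coeff.support ∪ y.coeff.support)
      (by rw [MonoidAlgebra.coeff_add]; exact Finsupp.support_add),
    nw_eq_sum w x subset_union_left, nw_eq_sum w y subset_union_right, ← sum_add_distrib]
  refine sum_le_sum fun g _ => ?_
  rw [MonoidAlgebra.coeff_add, Finsupp.add_apply, ← add_mul]
  exact mul_le_mul_of_nonneg_right (norm_add_le _ _) (hw g)

lemma nw_neg (w : G → ℝ) (x : MonoidAlgebra ℂ G) : nw w (-x) = nw w x := by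
  simp only [nw, MonoidAlgebra.coeff_neg]
  rw [Finsupp.sum_neg_index (fun g => by simp)]
  simp

lemma nw_sum_le {w : G → ℝ} (hw : ∀ g, 0 ≤ w g) {ι : Type*} (s : Finset ι)
    (f : ι → MonoidAlgebra ℂ G) : nw w (∑ i ∈ s, f i) ≤ ∑ i ∈ s, nw w (f i) := by
  classical
  induction s using Finset.induction_on with
  | empty => simp [nw]
  | insert i s hi ih =>
    rw [sum_insert hi, sum_insert hi]
    exact (nw_add_le hw _ _).trans (add_le_add le_rfl ih)

lemma nw_single (w : G → ℝ) (g : G) (a : ℂ) : nw w (MonoidAlgebra.single g a) = ‖a‖ * w g := by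
  simp [nw, Finsupp.sum_single_index]

lemma nw_mul_le {w u v : G → ℝ} (hw : ∀ g, 0 ≤ w g) (h : ∀ g k, w (g * k) ≤ u g + v k)
    (x y : MonoidAlgebra ℂ G) :
    nw w (x * y) ≤ nw u x * nw (fun _ => 1) y + nw (fun _ => 1) x * nw v y := by
  have hxy : x * y = ∑ g ∈ x.coeff.support, ∑ k ∈ y.coeff.support,
      MonoidAlgebra.single (g * k) (x.coeff g * y.coeff k) := by
    rw [MonoidAlgebra.mul_def]; rfl
  rw [hxy]
  refine (nw_sum_le hw _ _).trans ?_
  simp only [nw, Finsupp.sum, sum_mul_sum, ← sum_add_distrib]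
  refine sum_le_sum fun g _ => (nw_sum_le hw _ _).trans (sum_le_sum fun k _ => ?_)
  rw [nw_single, norm_mul]
  have hm := mul_le_mul_of_nonneg_left (h g k)
    (mul_nonneg (norm_nonneg (x.coeff g)) (norm_nonneg (y.coeff k)))
  nlinarith

lemma norm_lin_le {W : G → ℂ} {w : G → ℝ} (hW : ∀ g, ‖W g‖ ≤ w g) (x : MonoidAlgebra ℂ G) :
    ‖lin W x‖ ≤ nw w x :=
  (norm_sum_le _ _).trans (sum_le_sum fun g _ =>
    (norm_mul_le _ _).trans (mul_le_mul_of_nonneg_left (hW g) (norm_nonneg _)))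

lemma norm_bil_le {ψ : G → G → ℂ} {M : G → ℝ} (hψ : ∀ g h, ‖ψ g h‖ ≤ M h)
    (x y : MonoidAlgebra ℂ G) : ‖bil ψ x y‖ ≤ nw (fun _ => 1) x * nw M y := by
  refine (norm_sum_le _ _).trans ?_
  rw [nw, Finsupp.sum, sum_mul]
  refine sum_le_sum fun g _ => (norm_mul_le _ _).trans ?_
  rw [mul_one]
  exact mul_le_mul_of_nonneg_left (norm_lin_le (hψ g) y) (norm_nonneg _)

/-- Weighted norm of a matrix over the group ring. -/
noncomputable def mn (w : G → ℝ) (X : Matrix (Fin q) (Fin q) (MonoidAlgebra ℂ G)) : ℝ :=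
  ∑ i, ∑ j, nw w (X i j)

variable {w : G → ℝ}

lemma mn_nonneg (hw : ∀ g, 0 ≤ w g) (X : Matrix (Fin q) (Fin q) (MonoidAlgebra ℂ G)) :
    0 ≤ mn w X :=
  sum_nonneg fun _ _ => sum_nonneg fun _ _ => nw_nonneg hw _

lemma mn_add_le (hw : ∀ g, 0 ≤ w g) (X Y : Matrix (Fin q) (Fin q) (MonoidAlgebra ℂ G)) :
    mn w (X + Y) ≤ mn w X + mn w Y := by
  simp only [mn, ← sum_add_distrib, Matrix.add_apply]
  exact sum_le_sum fun i _ => sum_le_sum fun j _ => nw_add_le hw _ _

lemma mn_sub_le (hw : ∀ g, 0 ≤ w g) (X Y : Matrix (Fin q) (Fin q) (MonoidAlgebra ℂ G)) :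
    mn w (X - Y) ≤ mn w X + mn w Y := by
  rw [sub_eq_add_neg]
  refine (mn_add_le hw _ _).trans (le_of_eq ?_)
  simp [mn, nw_neg]

lemma mn_mul_le {u v : G → ℝ} (hw : ∀ g, 0 ≤ w g) (hu : ∀ g, 0 ≤ u g) (hv : ∀ g, 0 ≤ v g)
    (h : ∀ g k, w (g * k) ≤ u g + v k) (X Y : Matrix (Fin q) (Fin q) (MonoidAlgebra ℂ G)) :
    mn w (X * Y) ≤ mn u X * mn (fun _ => 1) Y + mn (fun _ => 1) X * mn v Y := by
  have key : ∀ (a b : Fin q → Fin q → ℝ), (∀ i j, 0 ≤ a i j) → (∀ i j, 0 ≤ b i j) →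
      ∑ i, ∑ k, ∑ j, a i j * b j k ≤ (∑ i, ∑ j, a i j) * ∑ j, ∑ k, b j k := by
    intro a b ha hb
    rw [sum_mul]
    refine sum_le_sum fun i _ => ?_
    rw [sum_comm, sum_mul]
    refine sum_le_sum fun j _ => ?_
    rw [← mul_sum]
    exact mul_le_mul_of_nonneg_left
      (single_le_sum (f := fun j => ∑ k, b j k) (fun j _ => sum_nonneg fun k _ => hb j k)
        (mem_univ j)) (ha i j)
  have h1 : ∀ _g : G, (0:ℝ) ≤ 1 := fun _ => zero_le_one
  have step : mn w (X * Y) ≤ ∑ i, ∑ k, ∑ j, (nw u (X i j) * nw (fun _ => 1) (Y j k)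
      + nw (fun _ => 1) (X i j) * nw v (Y j k)) := by
    refine sum_le_sum fun i _ => sum_le_sum fun k _ => ?_
    rw [Matrix.mul_apply]
    exact (nw_sum_le hw _ _).trans (sum_le_sum fun j _ => nw_mul_le hw h _ _)
  refine step.trans ?_
  simp only [sum_add_distrib]
  exact add_le_add (key _ _ (fun _ _ => nw_nonneg hu _) (fun _ _ => nw_nonneg h1 _))
    (key _ _ (fun _ _ => nw_nonneg h1 _) (fun _ _ => nw_nonneg hv _))

lemma mn_one_mul_le (X Y : Matrix (Fin q) (Fin q) (MonoidAlgebra ℂ G)) :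
    mn (fun _ => 1) (X * Y) ≤ mn (fun _ => 1) X * mn (fun _ => 1) Y := by
  have h := mn_mul_le (w := fun _ : G => (1:ℝ)) (u := fun _ => 1) (v := fun _ => 0)
    (fun _ => zero_le_one) (fun _ => zero_le_one) (fun _ => le_rfl) (fun _ _ => by norm_num) X Y
  refine h.trans (le_of_eq ?_)
  simp [mn, nw]

/-- Matrix bilinear form of a cyclic cocycle. -/
noncomputable def mbil (ψ : G → G → ℂ) (X Y : Matrix (Fin q) (Fin q) (MonoidAlgebra ℂ G)) : ℂ :=
  ∑ i, ∑ j, bil ψ (X i j) (Y j i)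

/-- Trace functional on matrices over the group ring. -/
noncomputable def mlin (W : G → ℂ) (X : Matrix (Fin q) (Fin q) (MonoidAlgebra ℂ G)) : ℂ :=
  ∑ i, lin W (X i i)

lemma norm_mlin_le {W : G → ℂ} (hW : ∀ g, ‖W g‖ ≤ w g) (hw : ∀ g, 0 ≤ w g)
    (X : Matrix (Fin q) (Fin q) (MonoidAlgebra ℂ G)) : ‖mlin W X‖ ≤ mn w X := by
  refine (norm_sum_le _ _).trans (sum_le_sum fun i _ => (norm_lin_le hW _).trans ?_)
  exact single_le_sum (f := fun j => nw w (X i j)) (fun j _ => nw_nonneg hw _) (mem_univ i)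

lemma norm_mbil_le {ψ : G → G → ℂ} {M : G → ℝ} (hψ : ∀ g h, ‖ψ g h‖ ≤ M h)
    (hM : ∀ g, 0 ≤ M g) (X Y : Matrix (Fin q) (Fin q) (MonoidAlgebra ℂ G)) :
    ‖mbil ψ X Y‖ ≤ mn (fun _ => 1) X * mn M Y := by
  refine (norm_sum_le _ _).trans ?_
  rw [mn, sum_mul]
  refine sum_le_sum fun i _ => (norm_sum_le _ _).trans ?_
  rw [sum_mul]
  refine sum_le_sum fun j _ => (norm_bil_le hψ _ _).trans ?_
  refine mul_le_mul_of_nonneg_left ?_ (nw_nonneg (fun _ => zero_le_one) _)
  exact (single_le_sum (f := fun k => nw M (Y j k)) (fun k _ => nw_nonneg hM _) (mem_univ i)).trans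
    (single_le_sum (f := fun l => ∑ k, nw M (Y l k))
      (fun l _ => sum_nonneg fun k _ => nw_nonneg hM _) (mem_univ j))

variable {ψ : G → G → ℂ}

lemma mlin_mul (hψ : ∀ a b c, ψ a (b * c) = ψ (c * a) b + ψ (a * b) c)
    (X Y : Matrix (Fin q) (Fin q) (MonoidAlgebra ℂ G)) :
    mlin (ψ 1) (X * Y) = mbil ψ Y X + mbil ψ X Y := by
  simp only [mlin, mbil, Matrix.mul_apply, lin_sum, lin_mul hψ, sum_add_distrib]
  rw [sum_comm]

lemma bil_sum_left {ι : Type*} (s : Finset ι) (f : ι → MonoidAlgebra ℂ G)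
    (z : MonoidAlgebra ℂ G) : bil ψ (∑ i ∈ s, f i) z = ∑ i ∈ s, bil ψ (f i) z :=
  map_sum (AddMonoidHom.mk' (fun x => bil ψ x z) fun a b => bil_add_left ψ a b z) _ _

lemma bil_sum_right {ι : Type*} (s : Finset ι) (f : ι → MonoidAlgebra ℂ G)
    (z : MonoidAlgebra ℂ G) : bil ψ z (∑ i ∈ s, f i) = ∑ i ∈ s, bil ψ z (f i) :=
  map_sum (AddMonoidHom.mk' (fun x => bil ψ z x) fun a b => bil_add_right ψ z a b) _ _

lemma mbil_mul (hψ : ∀ a b c, ψ a (b * c) = ψ (c * a) b + ψ (a * b) c)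
    (X Y Z : Matrix (Fin q) (Fin q) (MonoidAlgebra ℂ G)) :
    mbil ψ X (Y * Z) = mbil ψ (Z * X) Y + mbil ψ (X * Y) Z := by
  simp only [mbil, Matrix.mul_apply, bil_sum_left, bil_sum_right, bil_mul hψ, sum_add_distrib]
  congr 1
  · calc ∑ i, ∑ j, ∑ k, bil ψ (Z k i * X i j) (Y j k)
        = ∑ i, ∑ k, ∑ j, bil ψ (Z k i * X i j) (Y j k) := sum_congr rfl fun i _ => sum_comm
      _ = ∑ k, ∑ i, ∑ j, bil ψ (Z k i * X i j) (Y j k) := sum_comm
      _ = _ := sum_congr rfl fun k _ => sum_comm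
  · exact sum_congr rfl fun i _ => sum_comm

lemma mbil_add_right (X Y Z : Matrix (Fin q) (Fin q) (MonoidAlgebra ℂ G)) :
    mbil ψ X (Y + Z) = mbil ψ X Y + mbil ψ X Z := by
  simp [mbil, bil_add_right, sum_add_distrib]

lemma mbil_add_left (X Y Z : Matrix (Fin q) (Fin q) (MonoidAlgebra ℂ G)) :
    mbil ψ (X + Y) Z = mbil ψ X Z + mbil ψ Y Z := by
  simp [mbil, bil_add_left, sum_add_distrib]

/-- For an almost idempotent matrix the cocycle's diagonal is small. -/
lemma almost_idem_bound {M : G → ℝ} (hM : ∀ g, 0 ≤ M g)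
    (hψ : ∀ a b c, ψ a (b * c) = ψ (c * a) b + ψ (a * b) c) (hψM : ∀ g h, ‖ψ g h‖ ≤ M h)
    (A : Matrix (Fin q) (Fin q) (MonoidAlgebra ℂ G)) :
    ‖mlin (ψ 1) A + mlin (ψ 1) (A * A - A)‖ ≤
      2 * (mn (fun _ => 1) A * mn M (A * A - A)
        + 2 * (mn (fun _ => 1) (A * A - A) * mn M A)) := by
  set x := A * A - A with hx
  have hAA : A * A = A + x := by rw [hx, add_sub_cancel]
  have h1 : mlin (ψ 1) A + mlin (ψ 1) x = 2 * mbil ψ A A := by
    rw [two_mul, ← mlin_mul hψ A A, hAA]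
    simp [mlin, lin_add, sum_add_distrib]
  have h2 := mbil_mul hψ A A A
  rw [hAA, mbil_add_right, mbil_add_left] at h2
  have h3 : mbil ψ A A = mbil ψ A x - 2 * mbil ψ x A := by linear_combination -h2
  rw [h1, norm_mul, Complex.norm_two]
  refine mul_le_mul_of_nonneg_left ?_ zero_le_two
  rw [h3]
  refine (norm_sub_le _ _).trans (add_le_add (norm_mbil_le hψM hM _ _) ?_)
  rw [norm_mul, Complex.norm_two]
  exact mul_le_mul_of_nonneg_left (norm_mbil_le hψM hM _ _) zero_le_two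

/-- One Newton step towards an idempotent. -/
noncomputable def newton (A : Matrix (Fin q) (Fin q) (MonoidAlgebra ℂ G)) :
    Matrix (Fin q) (Fin q) (MonoidAlgebra ℂ G) :=
  A + ((A * A - A) - (A * (A * A - A) + A * (A * A - A)))

lemma newton_err (A : Matrix (Fin q) (Fin q) (MonoidAlgebra ℂ G)) :
    newton A * newton A - newton A =
      let x := A * A - A
      (x * x) * (x + x + x + x) - (x * x + x * x + x * x) := by
  simp only [newton]
  noncomm_ring

lemma mn_four_le (hw : ∀ g, 0 ≤ w g) (X : Matrix (Fin q) (Fin q) (MonoidAlgebra ℂ G)) :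
    mn w (X + X + X + X) ≤ 4 * mn w X ∧ mn w (X + X + X) ≤ 3 * mn w X := by
  have e1 := mn_add_le hw (X + X + X) X
  have e2 := mn_add_le hw (X + X) X
  have e3 := mn_add_le hw X X
  constructor <;> linarith

/-- The effect of one Newton step on the two norms. -/
lemma newton_bounds {M : G → ℝ} (hM : ∀ g, 0 ≤ M g) (hMmul : ∀ a b, M (a * b) ≤ M a + M b)
    (a : Matrix (Fin q) (Fin q) (MonoidAlgebra ℂ G)) (u v A W : ℝ)
    (hu : mn (fun _ => 1) (a * a - a) ≤ u) (hv : mn M (a * a - a) ≤ v)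
    (hA : mn (fun _ => 1) a ≤ A) (hW : mn M a ≤ W) (hus : u ≤ 1 / 28) :
    mn (fun _ => 1) (newton a * newton a - newton a) ≤ u / 4 ∧
      mn M (newton a * newton a - newton a) ≤ 3 / 4 * v ∧
      mn (fun _ => 1) (newton a - a) ≤ u * (1 + 2 * A) ∧
      mn M (newton a) ≤ 2 * W + v * (1 + 2 * A) := by
  have h1 : ∀ _g : G, (0:ℝ) ≤ 1 := fun _ => zero_le_one
  have hMM : ∀ X Y : Matrix (Fin q) (Fin q) (MonoidAlgebra ℂ G),
      mn M (X * Y) ≤ mn M X * mn (fun _ => 1) Y + mn (fun _ => 1) X * mn M Y :=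
    mn_mul_le hM hM hM hMmul
  set x := a * a - a with hx
  have nx := mn_nonneg h1 x
  have Mx := mn_nonneg hM x
  have na := mn_nonneg h1 a
  have Ma := mn_nonneg hM a
  have u0 : 0 ≤ u := nx.trans hu
  have v0 : 0 ≤ v := Mx.trans hv
  have A0 : 0 ≤ A := na.trans hA
  have hxx : mn (fun _ => 1) (x * x) ≤ u * u :=
    (mn_one_mul_le x x).trans (mul_le_mul hu hu nx u0)
  have hxxM : mn M (x * x) ≤ v * u + u * v :=
    (hMM x x).trans (add_le_add (mul_le_mul hv hu nx v0) (mul_le_mul hu hv Mx u0))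
  have h4 : mn (fun _ => 1) (x + x + x + x) ≤ 4 * u := by linarith [(mn_four_le h1 x).1]
  have h4M : mn M (x + x + x + x) ≤ 4 * v := by linarith [(mn_four_le hM x).1]
  rw [newton_err]
  refine ⟨?_, ?_, ?_, ?_⟩
  · refine (mn_sub_le h1 _ _).trans ?_
    have e1 : mn (fun _ => 1) (x * x * (x + x + x + x)) ≤ u * u * (4 * u) :=
      (mn_one_mul_le _ _).trans (mul_le_mul hxx h4 (mn_nonneg h1 _) (mul_nonneg u0 u0))
    have e2 := (mn_four_le h1 (x * x)).2
    nlinarith
  · refine (mn_sub_le hM _ _).trans ?_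
    have e1 : mn M (x * x * (x + x + x + x)) ≤ (v * u + u * v) * (4 * u) + u * u * (4 * v) :=
      (hMM _ _).trans (add_le_add
        (mul_le_mul hxxM h4 (mn_nonneg h1 _) (by positivity))
        (mul_le_mul hxx h4M (mn_nonneg hM _) (mul_nonneg u0 u0)))
    have e2 := (mn_four_le hM (x * x)).2
    have g1 : u * v ≤ 1 / 28 * v := mul_le_mul_of_nonneg_right hus v0
    have g2 : u * (u * v) ≤ 1 / 28 * (1 / 28 * v) := mul_le_mul hus g1 (mul_nonneg u0 v0) (by norm_num)
    linarith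
  · have e : newton a - a = x - (a * x + a * x) := by rw [newton, ← hx]; abel
    rw [e]
    have f2 := mn_sub_le h1 x (a * x + a * x)
    have f3 := mn_add_le h1 (a * x) (a * x)
    have f4 : mn (fun _ => 1) (a * x) ≤ A * u := (mn_one_mul_le a x).trans (mul_le_mul hA hu nx A0)
    linarith
  · rw [newton, ← hx]
    have f1 := mn_add_le hM a (x - (a * x + a * x))
    have f2 := mn_sub_le hM x (a * x + a * x)
    have f3 := mn_add_le hM (a * x) (a * x)
    have f4 : mn M (a * x) ≤ W * u + A * v :=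
      (hMM a x).trans (add_le_add (mul_le_mul hW hu nx (Ma.trans hW)) (mul_le_mul hA hv Mx A0))
    have g1 : W * u ≤ W * (1 / 28) := mul_le_mul_of_nonneg_left hus (Ma.trans hW)
    linarith

/-- The trace seen by a cyclic cocycle of subadditive growth is controlled by the defect of
idempotency. -/
theorem trace_bound {M : G → ℝ} (hM : ∀ g, 0 ≤ M g) (hMmul : ∀ a b, M (a * b) ≤ M a + M b)
    (hψ : ∀ a b c, ψ a (b * c) = ψ (c * a) b + ψ (a * b) c) (hψM : ∀ g h, ‖ψ g h‖ ≤ M h)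
    {K : ℝ} (hK : ∀ g, ‖ψ 1 g‖ ≤ K)
    (A : Matrix (Fin q) (Fin q) (MonoidAlgebra ℂ G)) {u0 A0 : ℝ}
    (hu0 : mn (fun _ => 1) (A * A - A) ≤ u0) (hA0 : mn (fun _ => 1) A ≤ A0)
    (hu : u0 * (3 + 2 * A0) ≤ 1 / 28) :
    ‖mlin (ψ 1) A‖ ≤ K * (2 * u0 * (3 + 2 * A0)) := by
  have h1 : ∀ _g : G, (0:ℝ) ≤ 1 := fun _ => zero_le_one
  set v0 := mn M (A * A - A)
  set W0 := mn M A
  have u0p : 0 ≤ u0 := (mn_nonneg h1 _).trans hu0
  have A0p : 0 ≤ A0 := (mn_nonneg h1 _).trans hA0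
  have v0p : 0 ≤ v0 := mn_nonneg hM _
  have W0p : 0 ≤ W0 := mn_nonneg hM _
  set L := 3 + 2 * A0 with hL
  have Lp : 3 ≤ L := by linarith
  have u0s : u0 ≤ 1 / 28 := by
    have := mul_le_mul_of_nonneg_left Lp u0p
    linarith
  have key : ∀ k : ℕ, ∃ a, mn (fun _ => 1) (a * a - a) ≤ u0 * (1 / 4) ^ k ∧
      mn M (a * a - a) ≤ v0 * (3 / 4) ^ k ∧
      mn (fun _ => 1) (a - A) ≤ 2 * u0 * L * (1 - (1 / 4) ^ k) ∧
      mn M a + v0 * L ≤ 2 ^ k * (W0 + v0 * L) := by
    intro k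
    induction k with
    | zero => exact ⟨A, by simpa using hu0, by simp [v0], by simp [mn, nw], by simp [W0]⟩
    | succ k ih =>
      obtain ⟨a, iu, iv, id', iw⟩ := ih
      have hp1 : (1 / 4 : ℝ) ^ k ≤ 1 := pow_le_one₀ (by norm_num) (by norm_num)
      have hp0 : (0:ℝ) ≤ (1 / 4) ^ k := by positivity
      have hq1 : (3 / 4 : ℝ) ^ k ≤ 1 := pow_le_one₀ (by norm_num) (by norm_num)
      have hd : 2 * u0 * L * (1 - (1 / 4) ^ k) ≤ 2 * u0 * L :=
        mul_le_of_le_one_right (by positivity) (by linarith)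
      have hA : mn (fun _ => 1) a ≤ A0 + 1 := by
        have := mn_add_le h1 (a - A) A
        rw [sub_add_cancel] at this
        linarith
      obtain ⟨b1, b2, b3, b4⟩ := newton_bounds hM hMmul a _ _ _ _ iu iv hA le_rfl
        ((mul_le_of_le_one_right u0p hp1).trans u0s)
      refine ⟨newton a, b1.trans (le_of_eq ?_), b2.trans (le_of_eq ?_), ?_, ?_⟩
      · rw [pow_succ]; ring
      · rw [pow_succ]; ring
      · have := mn_add_le h1 (newton a - a) (a - A)
        rw [sub_add_sub_cancel] at this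
        have hnn : 0 ≤ u0 * L * (1 / 4) ^ k := by positivity
        have e : u0 * (1 / 4) ^ k * (1 + 2 * (A0 + 1)) = u0 * L * (1 / 4) ^ k := by rw [hL]; ring
        rw [pow_succ]
        linarith
      · have e : v0 * (3 / 4) ^ k * (1 + 2 * (A0 + 1)) ≤ v0 * L := by
          rw [hL, show 1 + 2 * (A0 + 1) = 3 + 2 * A0 by ring]
          exact mul_le_mul_of_nonneg_right (mul_le_of_le_one_right v0p hq1) (by linarith)
        rw [pow_succ]
        linarith
  have hK0 : 0 ≤ K := (norm_nonneg _).trans (hK 1)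
  have hlinK : ∀ X : Matrix (Fin q) (Fin q) (MonoidAlgebra ℂ G), ‖mlin (ψ 1) X‖ ≤ K * mn (fun _ => 1) X := by
    intro X
    refine (norm_mlin_le hK (fun _ => hK0) X).trans (le_of_eq ?_)
    simp only [mn, nw, Finsupp.sum, mul_sum, mul_one]
    exact sum_congr rfl fun i _ => sum_congr rfl fun j _ => sum_congr rfl fun g _ => mul_comm _ _
  have hfin : ∀ k : ℕ, ‖mlin (ψ 1) A‖ ≤ K * (2 * u0 * L) + (K * u0 * (1 / 4) ^ k
      + 2 * ((A0 + 1) * v0) * (3 / 4) ^ k + 4 * (u0 * (W0 + v0 * L)) * (1 / 2) ^ k) := by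
    intro k
    obtain ⟨a, iu, iv, id', iw⟩ := key k
    have hd : mn (fun _ => 1) (a - A) ≤ 2 * u0 * L :=
      id'.trans (mul_le_of_le_one_right (by positivity) (sub_le_self _ (by positivity)))
    have hA : mn (fun _ => 1) a ≤ A0 + 1 := by
      have := mn_add_le h1 (a - A) A
      rw [sub_add_cancel] at this
      linarith
    have hb := almost_idem_bound hM hψ hψM a
    have hsplit : mlin (ψ 1) A
        = ((mlin (ψ 1) a + mlin (ψ 1) (a * a - a)) - mlin (ψ 1) (a * a - a))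
          - mlin (ψ 1) (a - A) := by
      simp [mlin, lin_sub, sum_sub_distrib]
    rw [hsplit]
    refine (norm_sub_le _ _).trans ?_
    refine (add_le_add (norm_sub_le _ _) le_rfl).trans ?_
    have e1 := (hlinK (a * a - a)).trans (mul_le_mul_of_nonneg_left iu hK0)
    have e2 := (hlinK (a - A)).trans (mul_le_mul_of_nonneg_left hd hK0)
    have e3 : mn (fun _ => 1) a * mn M (a * a - a) ≤ (A0 + 1) * (v0 * (3 / 4) ^ k) :=
      mul_le_mul hA iv (mn_nonneg hM _) (by linarith)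
    have hc0 : 0 ≤ v0 * L := mul_nonneg v0p (by linarith)
    have e4 : mn (fun _ => 1) (a * a - a) * mn M a ≤ u0 * (1 / 4) ^ k * (2 ^ k * (W0 + v0 * L)) :=
      mul_le_mul iu (by linarith) (mn_nonneg hM _) (by positivity)
    have e5 : u0 * (1 / 4) ^ k * (2 ^ k * (W0 + v0 * L)) = u0 * (W0 + v0 * L) * (1 / 2) ^ k := by
      rw [show (1 / 2 : ℝ) = 1 / 4 * 2 by norm_num, mul_pow]; ring
    linarith
  have hlim : Filter.Tendsto (fun k : ℕ => K * (2 * u0 * L) + (K * u0 * (1 / 4) ^ k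
      + 2 * ((A0 + 1) * v0) * (3 / 4) ^ k + 4 * (u0 * (W0 + v0 * L)) * (1 / 2) ^ k))
      Filter.atTop (nhds (K * (2 * u0 * L))) := by
    have p : ∀ r : ℝ, 0 ≤ r → r < 1 → ∀ C : ℝ,
        Filter.Tendsto (fun k : ℕ => C * r ^ k) Filter.atTop (nhds 0) := fun r h0 h1 C => by
      simpa using (tendsto_pow_atTop_nhds_zero_of_lt_one h0 h1).const_mul C
    simpa using tendsto_const_nhds.add (((p (1 / 4) (by norm_num) (by norm_num) _).add
      (p (3 / 4) (by norm_num) (by norm_num) _)).add (p (1 / 2) (by norm_num) (by norm_num) _))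
  exact ge_of_tendsto' hlim hfin

end Vale.Agent.P184
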