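import Vale.Agent.P184.Cocycle
import Mathlib.Analysis.SpecialFunctions.Log.Basic
import Mathlib.Algebra.Order.AbsoluteValue.Basic
import Mathlib.LinearAlgebra.Matrix.Charpoly.Coeff
import Mathlib.LinearAlgebra.Eigenspace.Basic

/-! Heights of eigenspaces give equivariant functions with bounded increments. -/

namespace Vale.Agent.P184

open Finset

variable {L : Type*} [Field L] {n d : ℕ}

/-- The size of the maximal minors of a tall matrix. -/
def minorSum (v : AbsoluteValue L ℝ) (X : Matrix (Fin n) (Fin d) L) : ℝ :=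
  ∑ f : Fin d → Fin n, v (X.submatrix f id).det

lemma det_mul_expand (P : Matrix (Fin d) (Fin n) L) (X : Matrix (Fin n) (Fin d) L) :
    (P * X).det = ∑ f : Fin d → Fin n, (∏ i, P i (f i)) * (X.submatrix f id).det := by
  have h := (Matrix.detRowAlternating (R := L) (n := Fin d)).toMultilinearMap.map_sum
    (fun i (j : Fin n) => P i j • fun k => X j k)
  have e : (P * X).det = (Matrix.detRowAlternating (R := L) (n := Fin d)).toMultilinearMap
      (fun i => ∑ j, P i j • fun k => X j k) := by
    change (P * X).det = Matrix.det (Matrix.of fun i => ∑ j, P i j • fun k => X j k)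
    congr 1
    ext i k
    simp [Matrix.mul_apply, Finset.sum_apply]
  rw [e, h]
  refine sum_congr rfl fun f _ => ?_
  rw [MultilinearMap.map_smul_univ, smul_eq_mul]
  rfl

lemma minorSum_pos (v : AbsoluteValue L ℝ) {X : Matrix (Fin n) (Fin d) L}
    (h : ∃ P : Matrix (Fin d) (Fin n) L, P * X = 1) : 0 < minorSum v X := by
  obtain ⟨P, hP⟩ := h
  by_contra hc
  have h0 : ∀ f : Fin d → Fin n, (X.submatrix f id).det = 0 := fun f => by
    have := (sum_eq_zero_iff_of_nonneg fun f _ => v.nonneg _).1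
      (le_antisymm (not_lt.1 hc) (sum_nonneg fun f _ => v.nonneg _)) f (mem_univ f)
    exact v.eq_zero.1 this
  have := det_mul_expand P X
  simp [hP, h0] at this

lemma minorSum_mul_right (v : AbsoluteValue L ℝ) (X : Matrix (Fin n) (Fin d) L)
    (Z : Matrix (Fin d) (Fin d) L) : minorSum v (X * Z) = minorSum v X * v Z.det := by
  rw [minorSum, minorSum, sum_mul]
  refine sum_congr rfl fun f _ => ?_
  rw [← v.map_mul, ← Matrix.det_mul]
  congr 2

lemma minorSum_mul_left_le (v : AbsoluteValue L ℝ) (A : Matrix (Fin n) (Fin n) L) :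
    ∃ C : ℝ, 0 ≤ C ∧ ∀ X : Matrix (Fin n) (Fin d) L,
      minorSum v (A * X) ≤ C * minorSum v X := by
  refine ⟨∑ f : Fin d → Fin n, ∑ f' : Fin d → Fin n, v (∏ i, A (f i) (f' i)),
    sum_nonneg fun _ _ => sum_nonneg fun _ _ => v.nonneg _, fun X => ?_⟩
  rw [minorSum, sum_mul]
  refine sum_le_sum fun f _ => ?_
  have e : (A * X).submatrix f id = A.submatrix f id * X := rfl
  rw [e, det_mul_expand, sum_mul]
  refine (v.sum_le _ _).trans (sum_le_sum fun f' _ => ?_)
  rw [v.map_mul]
  exact mul_le_mul_of_nonneg_left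
    (single_le_sum (f := fun g : Fin d → Fin n => v (X.submatrix g id).det)
      (fun _ _ => v.nonneg _) (mem_univ f')) (v.nonneg _)

variable {G : Type*} [Group G] {q : ℕ}

/-- A representation with an eigenvalue of absolute value different from one kills the trace. -/
theorem traceAt_eq_zero_of_eigen {e : Fin q → Fin q → G → ℂ} (he : IsIdem e)
    (ρ : G →* Matrix (Fin n) (Fin n) L) (v : AbsoluteValue L ℝ) (g : G) (μ : L)
    (x : Fin n → L) (hx : x ≠ 0) (hgx : (ρ g).mulVec x = μ • x) (hμ : v μ ≠ 1) :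
    traceAt e g = 0 := by
  classical
  have hinvl : ∀ k, ρ k * ρ k⁻¹ = 1 := fun k => by rw [← map_mul, mul_inv_cancel, map_one]
  have hinvr : ∀ k, ρ k⁻¹ * ρ k = 1 := fun k => by rw [← map_mul, inv_mul_cancel, map_one]
  have hμ0 : μ ≠ 0 := by
    rintro rfl
    apply hx
    have := congrArg (ρ g⁻¹).mulVec hgx
    rwa [zero_smul, Matrix.mulVec_zero, Matrix.mulVec_mulVec, hinvr, Matrix.one_mulVec] at this
  let W : Submodule L (Fin n → L) := Module.End.eigenspace (Matrix.toLin' (ρ g)) μ
  have hmem : ∀ y, y ∈ W ↔ (ρ g).mulVec y = μ • y := fun y => by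
    rw [Module.End.mem_eigenspace_iff, Matrix.toLin'_apply]
  set d := Module.finrank L W
  have hd : 0 < d := Module.finrank_pos_iff_exists_ne_zero.2
    ⟨⟨x, (hmem x).2 hgx⟩, fun h => hx (congrArg Subtype.val h)⟩
  let bW : Module.Basis (Fin d) L W := Module.finBasis L W
  let B : Matrix (Fin n) (Fin d) L := Matrix.of fun i j => (bW j : Fin n → L) i
  have hBv : ∀ c : Fin d → L, B.mulVec c = ((bW.equivFun.symm c : W) : Fin n → L) := by
    intro c
    funext i
    simp [Matrix.mulVec, dotProduct, B, Module.Basis.equivFun_symm_apply, mul_comm,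
      Finset.sum_apply]
  -- a left inverse of `B`
  obtain ⟨Pl, hPl⟩ : ∃ Pl : (Fin n → L) →ₗ[L] W, Pl.comp W.subtype = LinearMap.id :=
    LinearMap.exists_leftInverse_of_injective _ (Submodule.ker_subtype W)
  let P : Matrix (Fin d) (Fin n) L :=
    LinearMap.toMatrix' (bW.equivFun.toLinearMap.comp Pl)
  have hPB : P * B = 1 := by
    apply Matrix.ext_of_mulVec_single
    intro j
    rw [← Matrix.mulVec_mulVec, hBv, Matrix.one_mulVec]
    simp only [P, LinearMap.toMatrix'_mulVec, LinearMap.comp_apply, LinearEquiv.coe_coe]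
    have := LinearMap.congr_fun hPl (bW.equivFun.symm (Pi.single j 1))
    simp only [LinearMap.comp_apply, Submodule.coe_subtype, LinearMap.id_apply] at this
    rw [this, LinearEquiv.apply_symm_apply]
  -- the centraliser acts on `B` from the right
  have hZ : ∀ z, z * g = g * z → ∃ Z : Matrix (Fin d) (Fin d) L, ρ z * B = B * Z := by
    intro z hz
    have hstab : ∀ y ∈ W, (ρ z).mulVec y ∈ W := fun y hy => by
      rw [hmem] at hy ⊢
      rw [Matrix.mulVec_mulVec, ← map_mul, ← hz, map_mul, ← Matrix.mulVec_mulVec, hy,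
        Matrix.mulVec_smul]
    refine ⟨Matrix.of fun i j => bW.equivFun ⟨(ρ z).mulVec (bW j), hstab _ (bW j).2⟩ i, ?_⟩
    apply Matrix.ext_of_mulVec_single
    intro j
    rw [← Matrix.mulVec_mulVec, ← Matrix.mulVec_mulVec, Matrix.mulVec_single_one (M := B),
      Matrix.mulVec_single_one]
    rw [show B.col j = (bW j : Fin n → L) from rfl]
    rw [show (Matrix.of fun i j => bW.equivFun ⟨(ρ z).mulVec (bW j), hstab _ (bW j).2⟩ i).col j
      = bW.equivFun ⟨(ρ z).mulVec (bW j), hstab _ (bW j).2⟩ from rfl, hBv,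
      LinearEquiv.symm_apply_apply]
  have hpos : ∀ k, 0 < minorSum v (ρ k * B) := fun k =>
    minorSum_pos v ⟨P * ρ k⁻¹, by
      rw [Matrix.mul_assoc, ← Matrix.mul_assoc (ρ k⁻¹), hinvr, Matrix.one_mul, hPB]⟩
  let F : G → ℝ := fun k => Real.log (minorSum v (ρ k⁻¹ * B))
  have hstep : ∀ a : G, ∃ C : ℝ, ∀ k, F (k * a) - F k ≤ C := by
    intro a
    obtain ⟨C, hC0, hC⟩ := minorSum_mul_left_le (d := d) v (ρ a⁻¹)
    have hCpos : 0 < C := by
      rcases hC0.eq_or_lt with h | h
      · exfalso
        have := hC (ρ a * B)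
        rw [← h, zero_mul, ← Matrix.mul_assoc, hinvr, Matrix.one_mul] at this
        have h2 := hpos 1
        rw [map_one, Matrix.one_mul] at h2
        linarith
      · exact h
    refine ⟨Real.log C, fun k => ?_⟩
    simp only [F, mul_inv_rev, map_mul, Matrix.mul_assoc]
    rw [sub_le_iff_le_add, ← Real.log_mul hCpos.ne' (hpos _).ne']
    refine Real.log_le_log ?_ (hC _)
    have := hpos (a⁻¹ * k⁻¹)
    rwa [map_mul, Matrix.mul_assoc] at this
  refine traceAt_eq_zero_of_height he g F (fun b => ?_) (fun z k hz => ?_) ?_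
  · obtain ⟨C1, h1⟩ := hstep b
    obtain ⟨C2, h2⟩ := hstep b⁻¹
    refine ⟨max C1 C2, fun k => abs_le.2 ⟨?_, (h1 k).trans (le_max_left _ _)⟩⟩
    have := h2 (k * b)
    rw [mul_inv_cancel_right] at this
    linarith [le_max_right C1 C2]
  · have hz' : z⁻¹ * g = g * z⁻¹ := by
      calc z⁻¹ * g = z⁻¹ * (g * z) * z⁻¹ := by group
        _ = g * z⁻¹ := by rw [← hz]; group
    obtain ⟨Z, hZ'⟩ := hZ z⁻¹ hz'
    have hdet : v Z.det ≠ 0 := fun h0 => by
      have := hpos z⁻¹
      rw [hZ', minorSum_mul_right, h0, mul_zero] at this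
      exact lt_irrefl _ this
    have key : ∀ k, F (z * k) = F k + Real.log (v Z.det) := fun k => by
      simp only [F, mul_inv_rev, map_mul, Matrix.mul_assoc, hZ']
      rw [← Matrix.mul_assoc, minorSum_mul_right, Real.log_mul (hpos _).ne' hdet]
    have h1 := key 1
    rw [mul_one] at h1
    rw [key k, h1]
    ring
  · have hZg : ρ g⁻¹ * B = B * (μ⁻¹ • (1 : Matrix (Fin d) (Fin d) L)) := by
      have hgB : ρ g * B = μ • B := by
        apply Matrix.ext_of_mulVec_single
        intro j
        rw [← Matrix.mulVec_mulVec, Matrix.mulVec_single_one, Matrix.smul_mulVec,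
          Matrix.mulVec_single_one]
        exact (hmem _).1 (bW j).2
      have := congrArg (fun M => μ⁻¹ • (ρ g⁻¹ * M)) hgB
      simp only [← Matrix.mul_assoc, hinvr, Matrix.one_mul, Matrix.mul_smul, smul_smul,
        inv_mul_cancel₀ hμ0, one_smul] at this
      rw [Matrix.mul_smul, Matrix.mul_one]
      exact this.symm
    have hB : 0 < minorSum v B := by simpa using hpos 1
    simp only [F, inv_one, map_one, Matrix.one_mul, hZg, minorSum_mul_right]
    rw [Matrix.det_smul, Matrix.det_one, mul_one, Fintype.card_fin, map_pow, map_inv₀,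
      Real.log_mul hB.ne' (pow_ne_zero _ (inv_ne_zero (v.ne_zero hμ0))), Real.log_pow,
      Real.log_inv]
    intro h
    have h2 : (d : ℝ) * -Real.log (v μ) = 0 := by linarith
    rcases mul_eq_zero.1 h2 with h3 | h3
    · exact hd.ne' (by exact_mod_cast h3)
    · exact hμ (Real.eq_one_of_pos_of_log_eq_zero (v.pos hμ0) (neg_eq_zero.1 h3))

end Vale.Agent.P184
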