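import Vale.Agent.P184.Translation
import Mathlib.GroupTheory.Coset.Basic

/-! Means on commutative and virtually cyclic centralisers. -/

namespace Vale.Agent.P184

open Finset Filter Topology

variable {A : Type*} [CommGroup A]

/-- Iterated averages over boxes. -/
noncomputable def boxAvg (N : ℕ) : List A → (A → ℝ) → ℝ
  | [], f => f 1
  | a :: l, f => (∑ n ∈ range N, boxAvg N l fun z => f (a ^ n * z)) / N

lemma boxAvg_add (N : ℕ) (l : List A) (f f' : A → ℝ) :
    boxAvg N l (f + f') = boxAvg N l f + boxAvg N l f' := by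
  induction l generalizing f f' with
  | nil => rfl
  | cons a l ih =>
    simp only [boxAvg, ← add_div, ← sum_add_distrib]
    congr 1
    refine sum_congr rfl fun n _ => ?_
    exact ih (fun z => f (a ^ n * z)) (fun z => f' (a ^ n * z))

lemma boxAvg_const {N : ℕ} (hN : 0 < N) (l : List A) (c : ℝ) :
    boxAvg N l (fun _ => c) = c := by
  induction l with
  | nil => rfl
  | cons a l ih =>
    simp only [boxAvg, ih, sum_const, card_range, nsmul_eq_mul]
    field_simp

lemma boxAvg_abs_le (N : ℕ) (l : List A) (f : A → ℝ) {C : ℝ} (h : ∀ z, |f z| ≤ C) :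
    |boxAvg N l f| ≤ C := by
  induction l generalizing f with
  | nil => exact h 1
  | cons a l ih =>
    have hC : 0 ≤ C := (abs_nonneg _).trans (h 1)
    simp only [boxAvg, abs_div, Nat.abs_cast]
    rcases N.eq_zero_or_pos with hN | hN
    · subst hN; simpa using hC
    · rw [div_le_iff₀ (by exact_mod_cast hN)]
      exact (abs_sum_le_sum_abs _ _).trans
        ((sum_le_sum (g := fun _ => C) fun n _ => ih _ fun z => h _).trans_eq
          (by simp [mul_comm]))

lemma boxAvg_shift (N : ℕ) (l : List A) (f : A → ℝ) {C : ℝ} (h : ∀ z, |f z| ≤ C) {w : A}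
    (hw : w ∈ l) : |boxAvg N l (fun z => f (z * w)) - boxAvg N l f| ≤ 2 * C / N := by
  induction l generalizing f with
  | nil => exact absurd hw List.not_mem_nil
  | cons a l ih =>
    have hC : 0 ≤ C := (abs_nonneg _).trans (h 1)
    simp only [boxAvg, ← sub_div, ← sum_sub_distrib, abs_div, Nat.abs_cast]
    rcases N.eq_zero_or_pos with hN | hN
    · subst hN; simp
    have hN' : (0:ℝ) < N := by exact_mod_cast hN
    rw [div_le_div_iff_of_pos_right hN']
    rcases List.mem_cons.1 hw with rfl | hw'
    · have : ∀ n : ℕ, (fun z => f (w ^ n * z * w)) = fun z => f (w ^ (n + 1) * z) := fun n => by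
        funext z; rw [pow_succ, mul_right_comm]
      simp only [this]
      rw [sum_range_sub fun n => boxAvg N l fun z => f (w ^ n * z)]
      refine (abs_sub _ _).trans ?_
      linarith [boxAvg_abs_le N l (fun z => f (w ^ N * z)) fun z => h _,
        boxAvg_abs_le N l (fun z => f (w ^ 0 * z)) fun z => h _]
    · refine (abs_sum_le_sum_abs _ _).trans
        ((sum_le_sum (g := fun _ => 2 * C / N) fun n _ => ?_).trans_eq ?_)
      · simpa only [mul_assoc] using ih (fun z => f (a ^ n * z)) (fun z => h _) hw'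
      · simp; field_simp

/-- A commutative group carries an invariant mean. -/
lemma exists_mean : ∃ M : (A → ℝ) → ℝ,
    (∀ f f' C, (∀ z, |f z| ≤ C) → (∀ z, |f' z| ≤ C) → M (f + f') = M f + M f') ∧
    (∀ f C, (∀ z, |f z| ≤ C) → |M f| ≤ C) ∧ (∀ c : ℝ, M (fun _ => c) = c) ∧
    ∀ f w C, (∀ z, |f z| ≤ C) → M (fun z => f (z * w)) = M f := by
  classical
  let U : Ultrafilter (Finset A × ℕ) := Ultrafilter.of atTop
  have hU : (U : Filter (Finset A × ℕ)) ≤ atTop := Ultrafilter.of_le _
  let s : (A → ℝ) → Finset A × ℕ → ℝ := fun f p => boxAvg p.2 p.1.toList f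
  let M : (A → ℝ) → ℝ := fun f =>
    if h : ∃ L, Tendsto (s f) U (𝓝 L) then h.choose else 0
  have hM : ∀ f C, (∀ z, |f z| ≤ C) → Tendsto (s f) U (𝓝 (M f)) := by
    intro f C hf
    have h : ∃ L, Tendsto (s f) U (𝓝 L) := by
      obtain ⟨L, _, hL⟩ := (isCompact_Icc (a := -C) (b := C)).ultrafilter_le_nhds (U.map (s f))
        (le_principal_iff.2 (Ultrafilter.mem_map.2
          (Filter.univ_mem' (f := (U : Filter _)) (s := s f ⁻¹' Set.Icc (-C) C) fun p => abs_le.1 (boxAvg_abs_le p.2 p.1.toList f hf))))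
      exact ⟨L, hL⟩
    simp only [M, dif_pos h]
    exact h.choose_spec
  refine ⟨M, fun f f' C hf hf' => ?_, fun f C hf => ?_, fun c => ?_, fun f w C hf => ?_⟩
  · have h := hM (f + f') (C + C) fun z => (abs_add_le _ _).trans (add_le_add (hf z) (hf' z))
    exact tendsto_nhds_unique h (((hM f C hf).add (hM f' C hf')).congr fun p =>
      (boxAvg_add _ _ f f').symm)
  · exact le_of_tendsto' (hM f C hf).abs fun p => boxAvg_abs_le _ _ f hf
  · refine tendsto_nhds_unique (hM _ |c| fun _ => le_rfl) (tendsto_const_nhds.congr' ?_)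
    filter_upwards [(eventually_ge_atTop ((∅ : Finset A), 1)).filter_mono hU] with p hp
    exact (boxAvg_const hp.2 _ c).symm
  · have h0 : Tendsto (fun p => s (fun z => f (z * w)) p - s f p) U (𝓝 0) := by
      have h2 : Tendsto (fun p : Finset A × ℕ => 2 * C / (p.2 : ℝ)) U (𝓝 0) := by
        have hs : Tendsto (fun p : Finset A × ℕ => p.2) atTop atTop := by
          rw [← prod_atTop_atTop_eq]; exact tendsto_snd
        exact ((tendsto_const_div_atTop_nhds_zero_nat _).comp hs).mono_left hU
      refine squeeze_zero_norm' ?_ h2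
      filter_upwards [(eventually_ge_atTop (({w} : Finset A), 0)).filter_mono hU] with p hp
      exact boxAvg_shift _ _ f hf (Finset.mem_toList.2 (hp.1 (mem_singleton_self w)))
    have := tendsto_nhds_unique ((hM _ C fun z => hf _).sub (hM f C hf)) h0
    linarith

variable {G : Type*} [Group G] {q : ℕ}

/-- A commutative centraliser carries a mean. -/
lemma hasCentralMean_of_comm (g : G)
    (h : ∀ a b : G, a * g = g * a → b * g = g * b → a * b = b * a) : HasCentralMean g := by
  have hm : ∀ x : Subgroup.centralizer {g}, (x : G) * g = g * x := fun x =>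
    (Subgroup.mem_centralizer_iff.1 x.2 g (Set.mem_singleton g)).symm
  let _i : CommGroup (Subgroup.centralizer {g}) :=
    { (inferInstance : Group (Subgroup.centralizer {g})) with
      mul_comm := fun a b => Subtype.ext (h a b (hm a) (hm b)) }
  exact exists_mean

/-- Positive translation length and a virtually cyclic centraliser kill the trace. -/
theorem traceAt_eq_zero_of_finiteIndex {e : Fin q → Fin q → G → ℂ} (he : IsIdem e) (g : G)
    (ℓ : G → ℝ) (hadd : ∀ a b, ℓ (a * b) ≤ ℓ a + ℓ b) (hinv : ∀ a, ℓ a⁻¹ = ℓ a)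
    {c : ℝ} (hc : 0 < c) (hg : ∀ n : ℕ, c * n ≤ ℓ (g ^ n))
    (hfi : ((Subgroup.zpowers g).subgroupOf (Subgroup.centralizer {g})).FiniteIndex) :
    traceAt e g = 0 := by
  classical
  set H := (Subgroup.zpowers g).subgroupOf (Subgroup.centralizer {g})
  haveI := Fintype.ofFinite (Subgroup.centralizer {g} ⧸ H)
  have hm : ∀ x : Subgroup.centralizer {g}, (x : G) * g = g * x := fun x =>
    (Subgroup.mem_centralizer_iff.1 x.2 g (Set.mem_singleton g)).symm
  let r : Subgroup.centralizer {g} ⧸ H → G := fun x => (x.out : G)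
  refine traceAt_eq_zero_of_cyclic he g ℓ hadd hinv hc hg (univ.image r)
    (univ_nonempty.image r) (fun s hs => ?_) (fun z hz => ?_)
  · obtain ⟨x, _, rfl⟩ := mem_image.1 hs
    exact hm _
  · let z' : Subgroup.centralizer {g} := ⟨z, by
      rw [Subgroup.mem_centralizer_iff]; intro h hh; rw [Set.mem_singleton_iff.1 hh]; exact hz.symm⟩
    have hcomm : ∀ (m : ℤ) (x : Subgroup.centralizer {g}), g ^ m * (x : G) = x * g ^ m :=
      fun m x => (Commute.zpow_left (show Commute g (x : G) from (hm x).symm) m)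
    obtain ⟨d, hd⟩ := QuotientGroup.mk_out_eq_mul H z'
    obtain ⟨m, hm'⟩ : ∃ m : ℤ, g ^ m = ((d : Subgroup.centralizer {g}) : G) :=
      Subgroup.mem_zpowers_iff.1 d.2
    refine ⟨r z', ⟨mem_image_of_mem r (mem_univ _), -m, ?_⟩, ?_⟩
    · simp only [r, hd, Subgroup.coe_mul, ← hm']
      rw [← hcomm, ← mul_assoc, ← zpow_add]
      simp [z']
    · rintro s ⟨hs, n, hn⟩
      obtain ⟨x, _, rfl⟩ := mem_image.1 hs
      have hx : (x.out : Subgroup.centralizer {g} ⧸ H) = (z' : Subgroup.centralizer {g} ⧸ H) := by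
        rw [QuotientGroup.eq]
        change ((x.out⁻¹ * z' : Subgroup.centralizer {g}) : G) ∈ Subgroup.zpowers g
        refine ⟨n, ?_⟩
        change g ^ n = (x.out : G)⁻¹ * z
        rw [hn]
        simp only [r]
        rw [hcomm, inv_mul_cancel_left]
      rw [QuotientGroup.out_eq'] at hx
      simp only [r, hx]

end Vale.Agent.P184
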