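import Vale.Agent.P184.Abs
import Vale.Agent.P184.Linear

/-! Vanishing of `ℓ¹` traces at classes which are not quasi-unipotent in some representation. -/

namespace Vale.Agent.P184

open Finset

variable {G : Type*} [Group G] {q n : ℕ}

/-- If every eigenvalue is a root of unity then some power is unipotent. -/
lemma exists_eigen {E : Type} [Field E] [IsAlgClosed E] (A : Matrix (Fin n) (Fin n) E)
    (h : ∀ m : ℕ, 0 < m → ¬IsNilpotent (A ^ m - 1)) :
    ∃ μ : E, (∀ m : ℕ, 0 < m → μ ^ m ≠ 1) ∧ ∃ x : Fin n → E, x ≠ 0 ∧ A.mulVec x = μ • x := by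
  classical
  set R := A.charpoly.roots
  by_cases hall : ∀ r ∈ R, ∃ m : ℕ, 0 < m ∧ r ^ m = 1
  · exfalso
    choose! m hm0 hm1 using hall
    set N := ∏ r ∈ R.toFinset, m r
    have hN : 0 < N := prod_pos fun r hr => hm0 r (Multiset.mem_toFinset.1 hr)
    apply h N hN
    have hdvd : A.charpoly ∣ (Polynomial.X ^ N - 1) ^ Multiset.card R := by
      rw [Polynomial.Splits.eq_prod_roots_of_monic (IsAlgClosed.splits A.charpoly)
        A.charpoly_monic]
      have : (Polynomial.X ^ N - 1 : Polynomial E) ^ Multiset.card R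
          = (R.map fun _ => (Polynomial.X ^ N - 1 : Polynomial E)).prod := by simp
      rw [this]
      refine Multiset.prod_dvd_prod_of_dvd _ _ fun r hr => ?_
      rw [Polynomial.dvd_iff_isRoot]
      simp only [Polynomial.IsRoot, Polynomial.eval_sub, Polynomial.eval_pow, Polynomial.eval_X,
        Polynomial.eval_one]
      obtain ⟨k, hk⟩ := Finset.dvd_prod_of_mem m (Multiset.mem_toFinset.2 hr)
      rw [show N = m r * k from hk, pow_mul, hm1 r hr, one_pow, sub_self]
    obtain ⟨P, hP⟩ := hdvd
    refine ⟨Multiset.card R, ?_⟩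
    have := congrArg (Polynomial.aeval A) hP
    simpa [Matrix.aeval_self_charpoly] using this
  · push Not at hall
    obtain ⟨μ, hμ, hμ'⟩ := hall
    refine ⟨μ, hμ', ?_⟩
    have hdet : (Matrix.scalar (Fin n) μ - A).det = 0 := by
      rw [← Matrix.eval_charpoly]
      exact (Polynomial.mem_roots'.1 hμ).2
    obtain ⟨x, hx, hx0⟩ := Matrix.exists_mulVec_eq_zero_iff.2 hdet
    refine ⟨x, hx, ?_⟩
    rw [Matrix.sub_mulVec, sub_eq_zero] at hx0
    rw [← hx0]
    funext i
    simp [Matrix.scalar, Matrix.mulVec_diagonal]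

lemma isNilpotent_conj {R : Type*} [Ring R] {a b x : R} (hab : a * b = 1) (hba : b * a = 1)
    (h : IsNilpotent (a * x * b)) : IsNilpotent x := by
  obtain ⟨k, hk⟩ := h
  refine ⟨k, ?_⟩
  let u : Rˣ := ⟨a, b, hab, hba⟩
  have h1 : (u : R) * x ^ k * (↑u⁻¹ : R) = 0 := by
    rw [← Units.conj_pow u x k]; exact hk
  calc x ^ k = b * ((u : R) * x ^ k * (↑u⁻¹ : R)) * a := by
        change x ^ k = b * (a * x ^ k * b) * a
        simp only [mul_assoc, hba, mul_one]
        rw [← mul_assoc b a, hba, one_mul]
    _ = 0 := by rw [h1, mul_zero, zero_mul]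

/-- The trace of an idempotent vanishes at every element which some representation does not send
to a quasi-unipotent matrix. -/
theorem traceAt_eq_zero_of_not_quasiUnipotent {K : Type} [Field K]
    (ρ : G →* Matrix (Fin n) (Fin n) K) {g : G}
    (hg : ∀ m : ℕ, 0 < m → ¬IsNilpotent (ρ g ^ m - 1)) {e : Fin q → Fin q → G → ℂ}
    (he : IsIdem e) : traceAt e g = 0 := by
  classical
  -- a countable subgroup carrying everything
  let S : Set G := insert g (⋃ i, ⋃ j, Function.support fun x => ‖e i j x‖)
  have hS : S.Countable := (Set.countable_iUnion fun i => Set.countable_iUnion fun j =>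
    (he.summable i j).countable_support).insert g
  haveI : Countable S := hS.to_subtype
  let φ : FreeGroup S →* G := FreeGroup.lift Subtype.val
  let H : Subgroup G := φ.range
  haveI : Countable H := φ.rangeRestrict_surjective.countable
  have hSH : ∀ x ∈ S, x ∈ H := fun x hx => ⟨FreeGroup.of ⟨x, hx⟩, by simp [φ]⟩
  have hout : ∀ i j x, x ∉ H → e i j x = 0 := fun i j x hx => by
    by_contra hne
    exact hx (hSH x (Set.mem_insert_of_mem _ (Set.mem_iUnion.2
      ⟨i, Set.mem_iUnion.2 ⟨j, by simpa using hne⟩⟩)))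
  let eH : Fin q → Fin q → H → ℂ := fun i j x => e i j x
  have htr : ∀ f : G → ℂ, (∀ x, x ∉ H → f x = 0) → ∑' x : H, f x = ∑' x, f x := fun f hf =>
    tsum_subtype_eq_of_support_subset (s := (H : Set G)) fun x hx =>
      by_contra fun h => hx (hf x h)
  have heH : IsIdem eH := by
    refine ⟨fun i j => (he.summable i j).subtype _, fun i k x => ?_⟩
    change _ = e i k (x : G)
    rw [← he.idem i k (x : G)]
    refine sum_congr rfl fun j _ => ?_
    rw [← htr (fun h => e i j h * e j k (h⁻¹ * (x : G))) fun h hh => by simp [hout i j h hh]]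
    rfl
  -- a countable field carrying the representation on `H`
  let E0 : Subfield K := Subfield.closure (Set.range fun p : H × Fin n × Fin n => ρ p.1 p.2.1 p.2.2)
  haveI : Countable E0 := by
    rw [← Cardinal.mk_le_aleph0_iff]
    exact (Subfield.cardinalMk_closure_le_max _).trans
      (max_le (Cardinal.le_aleph0_iff_set_countable.2 (Set.countable_range _)) le_rfl)
  let E := AlgebraicClosure E0
  haveI : Countable E := by
    rw [← Cardinal.mk_le_aleph0_iff]
    exact (Algebra.IsAlgebraic.cardinalMk_le_max E0 E).trans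
      (max_le Cardinal.mk_le_aleph0 le_rfl)
  have hmem : ∀ (x : H) i j, ρ x i j ∈ E0 := fun x i j =>
    Subfield.subset_closure ⟨(x, i, j), rfl⟩
  let r0 : H → Matrix (Fin n) (Fin n) E0 := fun x => Matrix.of fun i j => ⟨ρ x i j, hmem x i j⟩
  have hι : Function.Injective (E0.subtype.mapMatrix : Matrix (Fin n) (Fin n) E0 → _) :=
    fun a b h => by
      ext i j
      exact congr_fun (congr_fun h i) j
  have hr0 : ∀ x : H, E0.subtype.mapMatrix (r0 x) = ρ x := fun x => rfl
  let ρ0 : H →* Matrix (Fin n) (Fin n) E0 :=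
    { toFun := r0
      map_one' := hι (by rw [hr0, map_one, OneMemClass.coe_one, map_one])
      map_mul' := fun x y => hι (by rw [map_mul, hr0, hr0, hr0, Subgroup.coe_mul, map_mul]) }
  let ι := (algebraMap E0 E).mapMatrix (m := Fin n)
  have hιi : Function.Injective ι := fun a b h => by
    ext i j
    exact congrArg Subtype.val ((algebraMap E0 E).injective (congr_fun (congr_fun h i) j))
  let ρE : H →* Matrix (Fin n) (Fin n) E := ι.toMonoidHom.comp ρ0
  -- each class of `H` inside the class of `g` has zero trace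
  have hclass : ∀ x : H, IsConj g (x : G) → traceAt eH x = 0 := by
    intro x hx
    have hnil : ∀ m : ℕ, 0 < m → ¬IsNilpotent (ρE x ^ m - 1) := by
      intro m hm hn
      have h0 : IsNilpotent (ρ0 x ^ m - 1) := by
        obtain ⟨k, hk⟩ := hn
        refine ⟨k, hιi ?_⟩
        simpa [ρE] using hk
      have h1 : IsNilpotent (ρ (x : G) ^ m - 1) := by
        have := h0.map E0.subtype.mapMatrix
        rwa [map_sub, map_pow, map_one] at this
      obtain ⟨c, hc⟩ := isConj_iff.1 hx
      rw [← hc, map_mul, map_mul] at h1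
      apply hg m hm
      refine isNilpotent_conj (a := ρ c) (b := ρ c⁻¹)
        (by rw [← map_mul, mul_inv_cancel, map_one]) (by rw [← map_mul, inv_mul_cancel, map_one]) ?_
      let u : (Matrix (Fin n) (Fin n) K)ˣ := ⟨ρ c, ρ c⁻¹,
        by rw [← map_mul, mul_inv_cancel, map_one], by rw [← map_mul, inv_mul_cancel, map_one]⟩
      have hpow : (ρ c * ρ g * ρ c⁻¹) ^ m = ρ c * ρ g ^ m * ρ c⁻¹ := Units.conj_pow u (ρ g) m
      rw [hpow] at h1
      rwa [mul_sub, sub_mul, mul_one, ← map_mul ρ c c⁻¹, mul_inv_cancel, map_one]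
    obtain ⟨μ, hμ, y, hy, hxy⟩ := exists_eigen (ρE x) hnil
    have hμ0 : μ ≠ 0 := by
      rintro rfl
      apply hy
      have := congrArg (ρE x⁻¹).mulVec hxy
      rwa [zero_smul, Matrix.mulVec_zero, Matrix.mulVec_mulVec, ← map_mul, inv_mul_cancel,
        map_one, Matrix.one_mulVec] at this
    obtain ⟨v, hv⟩ := exists_abs μ hμ0 hμ
    exact traceAt_eq_zero_of_eigen heH ρE v x μ y hy hxy hv
  -- regroup the class of `g` along the classes of `H`
  set u : H → ℂ := fun x => if IsConj g (x : G) then diag eH x else 0 with hu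
  have hsu : Summable u := Summable.of_norm_bounded heH.summable_diag fun x => by
    simp only [u]; split_ifs <;> simp
  have h1 : traceAt e g = ∑' x : H, u x := by
    rw [traceAt, ← htr _ fun x hx => by
      split_ifs with h
      · exact sum_eq_zero fun i _ => hout i i x hx
      · rfl]
    refine tsum_congr fun x => ?_
    simp only [u, diag, eH]
  let σ := Equiv.sigmaFiberEquiv (ConjClasses.mk : H → ConjClasses H)
  have hsσ : Summable fun p => u (σ p) := (σ.summable_iff).2 hsu
  rw [h1, ← σ.tsum_eq u, hsσ.tsum_sigma]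
  refine (tsum_congr fun c => ?_).trans tsum_zero
  obtain ⟨x0, rfl⟩ := ConjClasses.mk_surjective c
  by_cases hc : IsConj g (x0 : G)
  · have h2 : ∑' p : {x : H // ConjClasses.mk x = ConjClasses.mk x0}, u (σ ⟨_, p⟩)
        = traceAt eH x0 := by
      rw [traceAt]
      refine Eq.trans ?_ (tsum_subtype_eq_of_support_subset
        (s := {x : H | ConjClasses.mk x = ConjClasses.mk x0}) ?_)
      · refine tsum_congr fun p => ?_
        have hp : IsConj x0 (p : H) := (ConjClasses.mk_eq_mk_iff_isConj.1 p.2).symm
        have hp' : IsConj g ((p : H) : G) := hc.trans (H.subtype.map_isConj hp)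
        rw [if_pos hp]
        change u (p : H) = _
        simp only [u, if_pos hp', diag]
      · intro x hx
        simp only [Function.mem_support] at hx
        by_contra h
        exact hx (if_neg fun hh => h (ConjClasses.mk_eq_mk_iff_isConj.2 hh.symm))
    exact h2.trans (hclass x0 hc)
  · refine (tsum_congr fun p => ?_).trans tsum_zero
    change u (p : H) = 0
    simp only [u]
    refine if_neg fun h => hc ?_
    exact h.trans (H.subtype.map_isConj (ConjClasses.mk_eq_mk_iff_isConj.1 p.2))

/-- In positive characteristic an element of infinite order of a linear group is never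
quasi-unipotent. -/
lemma not_quasiUnipotent {K : Type} [Field K] (p : ℕ) [Fact p.Prime] [CharP K p]
    (ρ : G →* Matrix (Fin n) (Fin n) K) (hρ : Function.Injective ρ) {g : G}
    (hg : ¬IsOfFinOrder g) (m : ℕ) (hm : 0 < m) : ¬IsNilpotent (ρ g ^ m - 1) := by
  rintro ⟨k, hk⟩
  have hfin : g ^ (m * p ^ k) = 1 := by
    apply hρ
    rw [map_pow, map_one, pow_mul]
    rcases isEmpty_or_nonempty (Fin n) with hn | hn
    · exact Subsingleton.elim _ _
    · have h := sub_pow_char_pow_of_commute p k (Commute.one_right (ρ g ^ m))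
      rw [one_pow, pow_eq_zero_of_le (Nat.lt_pow_self (Fact.out : p.Prime).one_lt).le hk] at h
      exact sub_eq_zero.1 h.symm
  exact hg (isOfFinOrder_iff_pow_eq_one.2
    ⟨m * p ^ k, Nat.mul_pos hm (pow_pos (Fact.out : p.Prime).pos k), hfin⟩)

end Vale.Agent.P184
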