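import Vale.Agent.P184.Cocycle
import Mathlib.Order.Filter.Ultrafilter.Basic
import Mathlib.Topology.Order.Compact
import Mathlib.GroupTheory.Index

/-! Positive translation length and an amenable centraliser give a height function. -/

namespace Vale.Agent.P184

open Finset Filter Topology

variable {G : Type*} [Group G] {q : ℕ}

/-- There is a right invariant mean on the centraliser of `g`. -/
def HasCentralMean (g : G) : Prop :=
  ∃ M : (Subgroup.centralizer {g} → ℝ) → ℝ,
    (∀ f f' C, (∀ z, |f z| ≤ C) → (∀ z, |f' z| ≤ C) → M (f + f') = M f + M f') ∧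
    (∀ f C, (∀ z, |f z| ≤ C) → |M f| ≤ C) ∧
    (∀ c : ℝ, M (fun _ => c) = c) ∧
    ∀ f w C, (∀ z, |f z| ≤ C) → M (fun z => f (z * w)) = M f

/-- An element with positive translation length admits a horofunction which it translates. -/
lemma exists_horo (g : G) (ℓ : G → ℝ) (hadd : ∀ a b, ℓ (a * b) ≤ ℓ a + ℓ b)
    (hinv : ∀ a, ℓ a⁻¹ = ℓ a) {c : ℝ} (hc : 0 < c) (hg : ∀ n : ℕ, c * n ≤ ℓ (g ^ n)) :
    ∃ (β : G → ℝ) (t : ℝ), 0 < t ∧ (∀ k b, |β (k * b) - β k| ≤ ℓ b) ∧
      ∀ k, β (g * k) = β k + t := by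
  have hlip : ∀ a b, |ℓ (a * b) - ℓ b| ≤ ℓ a := fun a b => by
    have h1 := hadd a b
    have h2 := hadd a⁻¹ (a * b)
    rw [inv_mul_cancel_left, hinv] at h2
    exact abs_le.2 ⟨by linarith, by linarith⟩
  let U : Ultrafilter ℕ := Ultrafilter.of atTop
  have hU : (U : Filter ℕ) ≤ atTop := Ultrafilter.of_le _
  let s : G → ℕ → ℝ := fun k N =>
    (∑ n ∈ range N, (ℓ (g ^ n) - ℓ (k⁻¹ * g ^ n))) / N
  have hs : ∀ k N, |s k N| ≤ ℓ k := by
    intro k N
    simp only [s]
    rw [abs_div, Nat.abs_cast]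
    rcases N.eq_zero_or_pos with hN | hN
    · subst hN
      simp only [range_zero, sum_empty, abs_zero, zero_div]
      exact (abs_nonneg _).trans (hlip k 1)
    · rw [div_le_iff₀ (by exact_mod_cast hN)]
      refine (abs_sum_le_sum_abs _ _).trans
        ((sum_le_sum (g := fun _ => ℓ k) fun n _ => ?_).trans_eq (by simp [mul_comm]))
      have := hlip k⁻¹ (g ^ n)
      rw [hinv, abs_sub_comm] at this
      exact this
  have hlim : ∀ k, ∃ L, Tendsto (s k) U (𝓝 L) := by
    intro k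
    obtain ⟨L, _, hL⟩ := (isCompact_Icc (a := -ℓ k) (b := ℓ k)).ultrafilter_le_nhds (U.map (s k))
      (le_principal_iff.2 (Ultrafilter.mem_map.2
        (Filter.univ_mem' (f := (U : Filter ℕ)) fun N => abs_le.1 (hs k N))))
    exact ⟨L, hL⟩
  choose β hβ using hlim
  have hlipβ : ∀ k b, |β (k * b) - β k| ≤ ℓ b := by
    intro k b
    refine le_of_tendsto' (((hβ (k * b)).sub (hβ k)).abs) fun N => ?_
    simp only [s, ← sub_div, abs_div, Nat.abs_cast, ← sum_sub_distrib]
    rcases N.eq_zero_or_pos with hN | hN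
    · subst hN
      simp only [range_zero, sum_empty, abs_zero, zero_div]
      exact (abs_nonneg _).trans (hlip b 1)
    · rw [div_le_iff₀ (by exact_mod_cast hN)]
      refine (abs_sum_le_sum_abs _ _).trans
        ((sum_le_sum (g := fun _ => ℓ b) fun n _ => ?_).trans_eq (by simp [mul_comm]))
      have := hlip b⁻¹ (k⁻¹ * g ^ n)
      rw [hinv] at this
      rw [mul_inv_rev, mul_assoc]
      calc |ℓ (g ^ n) - ℓ (b⁻¹ * (k⁻¹ * g ^ n)) - (ℓ (g ^ n) - ℓ (k⁻¹ * g ^ n))|
          = |ℓ (b⁻¹ * (k⁻¹ * g ^ n)) - ℓ (k⁻¹ * g ^ n)| := by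
            rw [← abs_neg]; congr 1; ring
        _ ≤ ℓ b := this
  refine ⟨β, β g - β 1, ?_, hlipβ, fun k => ?_⟩
  · -- the translation length is at least `c`
    have h1 : ∀ N : ℕ, 0 < N → c - (c + ℓ g⁻¹ + |ℓ (1 : G)|) / N ≤ s g N - s 1 N := by
      intro N hN
      simp only [s, ← sub_div, ← sum_sub_distrib]
      have hN' : (0:ℝ) < N := by exact_mod_cast hN
      have hb : c * (N - 1 : ℕ) ≤ ℓ (g ^ (N - 1)) := hg _
      rw [le_div_iff₀ hN', sub_mul, div_mul_cancel₀ _ hN'.ne']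
      have tel : ∑ n ∈ range N,
          (ℓ (g ^ n) - ℓ (g⁻¹ * g ^ n) - (ℓ (g ^ n) - ℓ (1⁻¹ * g ^ n)))
          = ℓ (g⁻¹ * g ^ N) - ℓ (g⁻¹ * g ^ 0) := by
        rw [← sum_range_sub (fun n => ℓ (g⁻¹ * g ^ n))]
        refine sum_congr rfl fun n _ => ?_
        rw [pow_succ', inv_mul_cancel_left, inv_one, one_mul]
        ring
      rw [tel, pow_zero, mul_one]
      obtain ⟨m, rfl⟩ : ∃ m, N = m + 1 := ⟨N - 1, by omega⟩
      rw [pow_succ', inv_mul_cancel_left]
      rw [Nat.add_sub_cancel] at hb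
      push_cast
      linarith [abs_nonneg (ℓ (1 : G))]
    have h2 : Tendsto (fun N : ℕ => c - (c + ℓ g⁻¹ + |ℓ (1 : G)|) / N) U (𝓝 c) := by
      have := (tendsto_const_div_atTop_nhds_zero_nat (c + ℓ g⁻¹ + |ℓ (1 : G)|)).const_sub c
      rw [sub_zero] at this
      exact this.mono_left hU
    have h3 : c ≤ β g - β 1 := le_of_tendsto_of_tendsto h2 ((hβ g).sub (hβ 1))
      ((eventually_gt_atTop 0).filter_mono hU |>.mono h1)
    linarith
  · -- translation by `g`
    have h4 : ∀ k : G, Tendsto (fun N : ℕ => s (g * k) N - s k N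
        - (ℓ (g⁻¹ * g ^ N) - ℓ g⁻¹) / N) U (𝓝 0) := by
      intro k
      refine squeeze_zero_norm (a := fun N : ℕ => (ℓ k + ℓ k) / N) (fun N => ?_)
        ((tendsto_const_div_atTop_nhds_zero_nat _).mono_left hU)
      simp only [s, ← sub_div, ← sum_sub_distrib, Real.norm_eq_abs, abs_div, Nat.abs_cast]
      refine div_le_div_of_nonneg_right ?_ (Nat.cast_nonneg _)
      have tel : ∑ n ∈ range N,
          (ℓ (g ^ n) - ℓ ((g * k)⁻¹ * g ^ n) - (ℓ (g ^ n) - ℓ (k⁻¹ * g ^ n)))
          = ℓ (k⁻¹ * (g⁻¹ * g ^ N)) - ℓ (k⁻¹ * g⁻¹) := by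
        have := sum_range_sub (fun n => ℓ (k⁻¹ * (g⁻¹ * g ^ n))) N
        rw [pow_zero, mul_one] at this
        rw [← this]
        refine sum_congr rfl fun n _ => ?_
        rw [pow_succ', inv_mul_cancel_left, mul_inv_rev, mul_assoc]
        ring
      rw [tel]
      have e1 := hlip k⁻¹ (g⁻¹ * g ^ N)
      have e2 := hlip k⁻¹ g⁻¹
      rw [hinv k] at e1 e2
      calc |ℓ (k⁻¹ * (g⁻¹ * g ^ N)) - ℓ (k⁻¹ * g⁻¹) - (ℓ (g⁻¹ * g ^ N) - ℓ g⁻¹)|
          = |(ℓ (k⁻¹ * (g⁻¹ * g ^ N)) - ℓ (g⁻¹ * g ^ N))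
              - (ℓ (k⁻¹ * g⁻¹) - ℓ g⁻¹)| := by congr 1; ring
        _ ≤ ℓ k + ℓ k := (abs_sub _ _).trans (add_le_add e1 e2)
    have h5 := (h4 k).sub (h4 1)
    rw [sub_zero] at h5
    have h6 := (((hβ (g * k)).sub (hβ k)).sub ((hβ (g * 1)).sub (hβ 1)))
    have h7 := tendsto_nhds_unique h6 (h5.congr fun N => by ring)
    rw [mul_one] at h7
    linarith

/-- The trace vanishes at an element of positive translation length whose centraliser carries an
invariant mean. -/
theorem traceAt_eq_zero_of_translation {e : Fin q → Fin q → G → ℂ} (he : IsIdem e) (g : G)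
    (ℓ : G → ℝ) (hadd : ∀ a b, ℓ (a * b) ≤ ℓ a + ℓ b) (hinv : ∀ a, ℓ a⁻¹ = ℓ a)
    {c : ℝ} (hc : 0 < c) (hg : ∀ n : ℕ, c * n ≤ ℓ (g ^ n)) (hM : HasCentralMean g) :
    traceAt e g = 0 := by
  obtain ⟨β, t, ht, hlip, hgk⟩ := exists_horo g ℓ hadd hinv hc hg
  obtain ⟨M, hMadd, hMbd, hMc, hMinv⟩ := hM
  let φ : G → Subgroup.centralizer {g} → ℝ := fun k z => β (z * k) - β z
  have hφ : ∀ k z, |φ k z| ≤ ℓ k := fun k z => hlip z k
  let F : G → ℝ := fun k => M (φ k)
  have hd : ∀ k b, |F (k * b) - F k| ≤ ℓ b := by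
    intro k b
    let ψ : Subgroup.centralizer {g} → ℝ := fun z => β (z * (k * b)) - β (z * k)
    have hψ : ∀ z, |ψ z| ≤ ℓ b := fun z => by
      simp only [ψ, ← mul_assoc]; exact hlip _ _
    have h := hMadd (φ k) ψ (max (ℓ k) (ℓ b)) (fun z => (hφ k z).trans (le_max_left _ _))
      fun z => (hψ z).trans (le_max_right _ _)
    have e : φ k + ψ = φ (k * b) := by funext z; simp [φ, ψ]
    rw [e] at h
    simp only [F]
    rw [h, add_sub_cancel_left]
    exact hMbd _ _ hψ
  refine traceAt_eq_zero_of_height he g F (fun b => ⟨ℓ b, fun k => hd k b⟩) (fun z k hz => ?_) ?_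
  · let w : Subgroup.centralizer {g} := ⟨z, by
      rw [Subgroup.mem_centralizer_iff]; intro h hh; rw [Set.mem_singleton_iff.1 hh]; exact hz.symm⟩
    have e : φ (z * k) = φ z + fun x => φ k (x * w) := by
      funext x
      simp [φ, w, mul_assoc]
    have h := hMadd (φ z) (fun x => φ k (x * w)) (max (ℓ z) (ℓ k))
      (fun x => (hφ z x).trans (le_max_left _ _)) fun x => (hφ k _).trans (le_max_right _ _)
    rw [← e, hMinv (φ k) w (ℓ k) (hφ k)] at h
    have h1 : φ 1 = fun _ => 0 := by funext x; simp [φ]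
    simp only [F, h, h1, hMc]
    ring
  · have e : φ g = fun _ => t := by
      funext x
      have hx : (x : G) * g = g * x :=
        (Subgroup.mem_centralizer_iff.1 x.2 g (Set.mem_singleton g)).symm
      simp [φ, hx, hgk]
    have h1 : φ 1 = fun _ => 0 := by funext x; simp [φ]
    simp only [F, e, h1, hMc]
    exact ht.ne'

/-- A centraliser in which the powers of `g` have finite index carries an invariant mean on
functions invariant under those powers; averaging over cosets gives the height directly. -/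
theorem traceAt_eq_zero_of_cyclic {e : Fin q → Fin q → G → ℂ} (he : IsIdem e) (g : G)
    (ℓ : G → ℝ) (hadd : ∀ a b, ℓ (a * b) ≤ ℓ a + ℓ b) (hinv : ∀ a, ℓ a⁻¹ = ℓ a)
    {c : ℝ} (hc : 0 < c) (hg : ∀ n : ℕ, c * n ≤ ℓ (g ^ n)) (T : Finset G) (hT : T.Nonempty)
    (hTc : ∀ s ∈ T, s * g = g * s)
    (hcos : ∀ z, z * g = g * z → ∃! s : G, s ∈ T ∧ ∃ m : ℤ, z = g ^ m * s) :
    traceAt e g = 0 := by
  obtain ⟨β, t, ht, hlip, hgk⟩ := exists_horo g ℓ hadd hinv hc hg
  let S : G → ℝ := fun k => ∑ s ∈ T, (β (s * k) - β s)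
  have hper : ∀ (m : ℤ) (k : G), β (g ^ m * k) = β k + m * t := by
    intro m
    induction m using Int.induction_on with
    | zero => simp
    | succ m ih =>
      intro k
      rw [zpow_add, zpow_one, mul_assoc, ih, hgk]
      push_cast; ring
    | pred m ih =>
      intro k
      have h := hgk (g ^ (-(m:ℤ) - 1) * k)
      rw [← mul_assoc, ← zpow_one_add, show (1:ℤ) + (-(m:ℤ) - 1) = -m by ring, ih] at h
      push_cast at h ⊢
      linarith
  refine traceAt_eq_zero_of_height he g S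
    (fun b => ⟨T.card * ℓ b, fun k => ?_⟩) (fun z k hz => ?_) ?_
  · simp only [S, ← sum_sub_distrib]
    refine (abs_sum_le_sum_abs _ _).trans
      ((sum_le_sum (g := fun _ => ℓ b) fun s _ => ?_).trans_eq (by simp))
    rw [← mul_assoc]
    simpa using hlip (s * k) b
  · -- right translation by `z` permutes the cosets
    have hex : ∀ s ∈ T, ∃! u : G, u ∈ T ∧ ∃ m : ℤ, s * z = g ^ m * u := fun s hs => hcos _ (by
      rw [mul_assoc, hz, ← mul_assoc, hTc s hs, mul_assoc])
    choose! σ hσ hσu using hex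
    have hinj : Set.InjOn σ T := by
      intro a ha b hb hab
      obtain ⟨m, hm⟩ := (hσ a ha).2
      obtain ⟨n, hn⟩ := (hσ b hb).2
      rw [hab] at hm
      have hab' : a = g ^ (m - n) * b := by
        have : a * z = g ^ (m - n) * b * z := by
          rw [mul_assoc, hn, ← mul_assoc, ← zpow_add, sub_add_cancel, hm]
        exact mul_right_cancel this
      exact (hcos a (hTc a ha)).unique ⟨ha, 0, by simp⟩ ⟨hb, m - n, hab'⟩
    have key : ∀ s ∈ T, β (s * (z * k)) - β (s * z) = β (σ s * k) - β (σ s) := by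
      intro s hs
      obtain ⟨m, hm⟩ := (hσ s hs).2
      rw [← mul_assoc, hm, mul_assoc, hper, hper]
      ring
    classical
    have himg : T.image σ = T := eq_of_subset_of_card_le
      (image_subset_iff.2 fun s hs => (hσ s hs).1)
      (card_image_of_injOn hinj).ge
    have hperm : ∑ s ∈ T, (β (σ s * k) - β (σ s)) = ∑ s ∈ T, (β (s * k) - β s) := by
      conv_rhs => rw [← himg, sum_image hinj]
    simp only [S, mul_one, sub_self, sum_const_zero, sub_zero]
    rw [← hperm, ← sum_congr rfl key, ← sum_sub_distrib]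
    exact sum_congr rfl fun s _ => by ring
  · have : ∀ s ∈ T, β (s * g) - β s = t := fun s hs => by rw [hTc s hs, hgk]; ring
    simp only [S, mul_one, sub_self, sum_const_zero, sum_congr rfl this, sum_const, nsmul_eq_mul]
    have : (0:ℝ) < T.card := by exact_mod_cast hT.card_pos
    positivity

end Vale.Agent.P184
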